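import Vale.Agent.N363.Ker

/-!
# P363: a nonnegative solution of `-Δ φ / 2 = O(|∇ φ| + φ)` has a bounded logarithmic gradient
-/

namespace Vale.Agent.N363

open MeasureTheory Filter Topology Set Metric
open Vale.Agent.P363.R.Sob
open scoped ContDiff ENNReal

noncomputable section

theorem ode_le {y y' γ : ℝ → ℝ} {ε T p β : ℝ} (hε : 0 < ε) (hγ : ContinuousOn γ (Ioi 0))
    (hγ0 : ∀ r, 0 < r → 0 ≤ γ r) (hy : ∀ r, 0 < r → HasDerivAt y (y' r) r)
    (hb : ∀ r ∈ Icc ε T, y' r ≤ p + β * γ r) (hp : 0 ≤ p) (hβ : 0 ≤ β) {r : ℝ}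
    (hr : r ∈ Icc ε T) : y r ≤ y ε + p * T + β * ∫ s in ε..T, γ s := by
  have hs : ∀ t, Icc ε t ⊆ Ioi 0 := fun t s hs => hε.trans_le hs.1
  have hi : ∀ t, ε ≤ t → IntervalIntegrable γ volume ε t := fun t ht =>
    (hγ.mono (hs t)).intervalIntegrable_of_Icc ht
  have h := intervalIntegral.sub_le_integral_of_hasDeriv_right_of_le (g := y) (g' := y')
    (φ := fun s => p + β * γ s) hr.1
    (fun s h => (hy s (hs r h)).continuousAt.continuousWithinAt)
    (fun s h => (hy s (hε.trans h.1)).hasDerivWithinAt)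
    ((continuousOn_const.add (continuousOn_const.mul (hγ.mono (hs r)))).integrableOn_Icc)
    (fun s h => hb s ⟨h.1.le, h.2.le.trans hr.2⟩)
  rw [intervalIntegral.integral_add intervalIntegrable_const ((hi r hr.1).const_mul β),
    intervalIntegral.integral_const, intervalIntegral.integral_const_mul, smul_eq_mul] at h
  have h2 : ∫ s in ε..r, γ s ≤ ∫ s in ε..T, γ s :=
    intervalIntegral.integral_mono_interval le_rfl hr.1 hr.2
      ((ae_restrict_mem measurableSet_Ioc).mono fun s h => hγ0 s (hε.trans h.1))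
      (hi T (hr.1.trans hr.2))
  nlinarith [mul_le_mul_of_nonneg_left h2 hβ, hr.2]

variable {E : Type*} [NormedAddCommGroup E] [NormedSpace ℝ E] [FiniteDimensional ℝ E]
  [MeasurableSpace E] [BorelSpace E] {μ : Measure E} [μ.IsAddHaarMeasure]
  {ι : Type*} [Fintype ι] [DecidableEq ι]
  {b : ι → E} {l : ι → E →L[ℝ] ℝ} {r : ℝ} {z w : E} {H P Q : ℝ → ℝ} {C : ℝ}

/-- `φ` has the weak gradient `u` and solves `-Δ φ / 2 = f` weakly. -/
structure Sol (μ : Measure E) (b : ι → E) (φ : E → ℝ) (u : ι → E → ℝ) (f : E → ℝ) : Prop where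
  lφ : LocallyIntegrable φ μ
  lu : ∀ i, LocallyIntegrable (u i) μ
  lf : LocallyIntegrable f μ
  wd : ∀ i, IsWD μ (b i) φ (u i)
  eq : ∀ η, Test η → ∑ i, ∫ x, fderiv ℝ η x (b i) * u i x ∂μ = 2 * ∫ x, η x * f x ∂μ

variable {φ f g h : E → ℝ} {u : ι → E → ℝ}

theorem Frame.lap_int (F : Frame b l) (K : Ker H P Q C) (hr : 0 < r)
    (hg : LocallyIntegrable g μ) : ∫ w, lap l P Q r z w * g w ∂μ =
      ∑ j, ∫ w, fderiv ℝ (fun w => P (qq l r z w) * l j (z - w)) w (b j) * g w ∂μ := by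
  simp only [F.lap_eq K, Finset.sum_mul]
  exact integral_finsetSum _ fun j _ => ((F.test2 K hr j).fderiv _).integrable_smul hg

theorem Frame.int_ker (F : Frame b l) (K : Ker H P Q C) (hr : 0 < r)
    (hg : LocallyIntegrable g μ) : Integrable (fun w => ker l P r z w * g w) μ :=
  (F.test_ker K hr).integrable_smul hg

theorem Frame.avg_mono (F : Frame b l) (K : Ker H P Q C) (hr : 0 < r) {k : E → ℝ} {c : ℝ}
    (hg : LocallyIntegrable g μ) (hk : ∀ w, |k w| ≤ c * ker l P r z w)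
    (hf : ∀ᵐ w ∂μ, |f w| ≤ g w) : |∫ w, k w * f w ∂μ| ≤ c * avg μ l P g z r := by
  unfold avg
  rw [← integral_const_mul, ← Real.norm_eq_abs]
  refine norm_integral_le_of_norm_le ((F.int_ker K hr hg).const_mul c) (hf.mono fun w hw => ?_)
  rw [Real.norm_eq_abs, abs_mul, ← mul_assoc]
  exact mul_le_mul (hk w) hw (abs_nonneg _) ((abs_nonneg _).trans (hk w))

theorem Frame.deriv_phi (F : Frame b l) (K : Ker H P Q C) (hr : 0 < r) (S : Sol μ b φ u f)
    (hg : LocallyIntegrable g μ) (hf : ∀ᵐ w ∂μ, |f w| ≤ g w) :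
    |(r ^ Fintype.card ι)⁻¹ * r⁻¹ * ∫ w, lap l P Q r z w * φ w ∂μ| ≤ r * avg μ l P g z r := by
  have e1 : ∀ j, ∫ w, fderiv ℝ (fun w => P (qq l r z w) * l j (z - w)) w (b j) * φ w ∂μ =
      -(r ^ 2 / 2) * ∫ w, fderiv ℝ (fun w => H (qq l r z w)) w (b j) * u j w ∂μ := by
    intro j
    have := S.wd j _ (F.test2 (z := z) K hr j)
    simp only [smul_eq_mul] at this
    rw [this, neg_mul, ← integral_const_mul]
    congr 2
    ext w
    rw [F.d1 K]
    field_simp
  rw [F.lap_int K hr S.lφ]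
  simp only [e1]
  rw [← Finset.mul_sum, S.eq _ (F.test hr K.cH K.zH), ← integral_const_mul, ← integral_const_mul,
    ← integral_const_mul]
  simp only [← mul_assoc]
  refine F.avg_mono K hr hg (fun w => ?_) hf
  have e : (r ^ Fintype.card ι)⁻¹ * r⁻¹ * -(r ^ 2 / 2) * 2 * H (qq l r z w) =
      -(r * ((r ^ Fintype.card ι)⁻¹ * H (qq l r z w))) := by
    field_simp
  rw [e, abs_neg, abs_of_nonneg (mul_nonneg hr.le (mul_nonneg (by positivity) (K.H0 _)))]
  exact mul_le_mul_of_nonneg_left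
    (mul_le_mul_of_nonneg_left (K.HP _ qq_nonneg) (by positivity)) hr.le

theorem Frame.deriv_u (F : Frame b l) (K : Ker H P Q C) (hr : 0 < r) (S : Sol μ b φ u f)
    (hg : LocallyIntegrable g μ) (hf : ∀ᵐ w ∂μ, |f w| ≤ g w) (i : ι) :
    |(r ^ Fintype.card ι)⁻¹ * r⁻¹ * ∫ w, lap l P Q r z w * u i w ∂μ| ≤ 2 * avg μ l P g z r := by
  have e1 : ∀ j, ∫ w, fderiv ℝ (fun w => P (qq l r z w) * l j (z - w)) w (b j) * u i w ∂μ =
      ∫ w, fderiv ℝ (fun w => P (qq l r z w) * l i (z - w)) w (b j) * u j w ∂μ := by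
    intro j
    rw [wd_comm (S.wd i) (S.wd j) (F.test2 K hr j)]
    congr 1
    ext w
    rw [F.d2 K, F.d2 K, mul_comm (l i (z - w))]
    simp only [eq_comm]
  rw [F.lap_int K hr (S.lu i)]
  simp only [e1]
  rw [S.eq _ (F.test2 K hr i), ← integral_const_mul, ← integral_const_mul]
  simp only [← mul_assoc]
  refine F.avg_mono K hr hg (fun w => ?_) hf
  rcases lt_or_ge 1 (qq l r z w) with h | h
  · simp [ker, K.zP _ h]
  · have e : (r ^ Fintype.card ι)⁻¹ * r⁻¹ * 2 * P (qq l r z w) * l i (z - w) =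
        2 * ker l P r z w * (l i (z - w) / r) := by
      unfold ker
      field_simp
    have h0 := ker_nonneg (l := l) (z := z) (w := w) K hr
    rw [e, abs_mul, abs_of_nonneg (by positivity), abs_div, abs_of_pos hr]
    exact mul_le_of_le_one_right (by positivity) ((div_le_one hr).2 (abs_l_le hr h i))

theorem Frame.avg_u (F : Frame b l) (K : Ker H P Q C) (hr : 0 < r) (S : Sol μ b φ u f)
    (h0 : ∀ᵐ w ∂μ, 0 ≤ φ w) (i : ι) :
    |avg μ l P (u i) z r| ≤ 2 * 2 ^ Fintype.card ι * C / r * avg μ l P φ z (2 * r) := by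
  have h1 := S.wd i _ (F.test_ker (z := z) K hr)
  simp only [smul_eq_mul] at h1
  rw [← abs_neg, avg, ← h1]
  refine F.avg_mono K (by positivity) S.lφ (fun w => ?_) (h0.mono fun w hw => (abs_of_nonneg hw).le)
  obtain ⟨L, h2, h3⟩ := F.exists_fderiv (K.dP (qq l r z w))
  have e : qq l (2 * r) z w = qq l r z w / 4 := by
    unfold qq
    field_simp
    ring
  have h4 : fderiv ℝ (ker l P r z) w = (r ^ Fintype.card ι)⁻¹ • L :=
    (h2.const_mul (r ^ Fintype.card ι)⁻¹).fderiv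
  have hC := K.C0
  rw [h4, smul_apply, h3, smul_eq_mul]
  rcases lt_or_ge 1 (qq l r z w) with h | h
  · rw [K.zQ _ h, zero_mul, mul_zero, abs_zero]
    exact mul_nonneg (by positivity) (ker_nonneg K (by positivity))
  · have e2 : 2 * 2 ^ Fintype.card ι * C / r * ker l P (2 * r) z w =
        (r ^ Fintype.card ι)⁻¹ * (C * P (qq l r z w / 4) * (2 * r / r ^ 2)) := by
      rw [ker, e, mul_pow]
      field_simp
    rw [e2, abs_mul, abs_of_nonneg (by positivity), abs_mul]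
    refine mul_le_mul_of_nonneg_left (mul_le_mul (K.QP _ qq_nonneg) ?_ (abs_nonneg _)
      (mul_nonneg hC (K.P0 _))) (by positivity)
    rw [abs_div, abs_mul, abs_neg, abs_two, abs_of_pos (by positivity : 0 < r ^ 2)]
    exact div_le_div_of_nonneg_right (by linarith [abs_l_le hr h i]) (by positivity)

theorem avg_nonneg (K : Ker H P Q C) (hr : 0 < r) (h0 : ∀ᵐ w ∂μ, 0 ≤ g w) :
    0 ≤ avg μ l P g z r :=
  integral_nonneg_of_ae (h0.mono fun _ hw => mul_nonneg (ker_nonneg K hr) hw)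

theorem Frame.pointwise (F : Frame b l) (K : Ker H P Q C) (S : Sol μ b φ u f)
    (h0 : ∀ᵐ w ∂μ, 0 ≤ φ w) (hh : LocallyIntegrable h μ) (hh0 : ∀ᵐ w ∂μ, 0 ≤ h w) {A B R ε : ℝ}
    (hA : 0 ≤ A) (hB : 0 ≤ B) (hf : ∀ᵐ w ∂μ, |f w| ≤ A * φ w + B * h w) (hε : 0 < ε)
    (hεR : ε ≤ R) (hAR : 8 * R ^ 2 * A ≤ 1) (i : ι) :
    |avg μ l P (u i) z ε| ≤ 2 * (2 * 2 ^ Fintype.card ι * C / R + 4 * A * R) *
      (avg μ l P φ z ε + 2 * R * B * ∫ s in ε..2 * R, avg μ l P h z s) +
        2 * B * ∫ s in ε..2 * R, avg μ l P h z s := by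
  have hR : 0 < R := hε.trans_le hεR
  have hC := K.C0
  have hg : LocallyIntegrable (fun w => A * φ w + B * h w) μ := (S.lφ.smul A).add (hh.smul B)
  have e : ∀ r, 0 < r → avg μ l P (fun w => A * φ w + B * h w) z r =
      A * avg μ l P φ z r + B * avg μ l P h z r := by
    intro r hr
    unfold avg
    rw [← integral_const_mul, ← integral_const_mul, ← integral_add
      ((F.int_ker K hr S.lφ).const_mul A) ((F.int_ker K hr hh).const_mul B)]
    congr 1
    ext w
    ring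
  have hγ : ContinuousOn (avg μ l P h z) (Ioi 0) := fun r hr =>
    (F.avg_hasDerivAt K hh hr).continuousAt.continuousWithinAt
  have hγ0 : ∀ r, 0 < r → 0 ≤ avg μ l P h z r := fun r hr => avg_nonneg K hr hh0
  have hε2 : ε ≤ 2 * R := by linarith
  obtain ⟨t, ht, hmax⟩ := (isCompact_Icc (a := ε) (b := 2 * R)).exists_isMaxOn
    (f := avg μ l P φ z) ⟨ε, le_rfl, hε2⟩ fun r hr =>
      (F.avg_hasDerivAt K S.lφ (hε.trans_le hr.1)).continuousAt.continuousWithinAt
  set G := ∫ s in ε..2 * R, avg μ l P h z s with hG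
  set M := avg μ l P φ z t with hM
  have hM0 : 0 ≤ M := avg_nonneg K (hε.trans_le ht.1) h0
  have hle : ∀ r ∈ Icc ε (2 * R), avg μ l P (fun w => A * φ w + B * h w) z r ≤
      A * M + B * avg μ l P h z r := fun r hr => by
    rw [e r (hε.trans_le hr.1)]
    linarith [mul_le_mul_of_nonneg_left (hmax hr) hA]
  have h1 := ode_le (p := 2 * R * (A * M)) (β := 2 * R * B) hε hγ hγ0
    (fun r hr => F.avg_hasDerivAt (z := z) K S.lφ hr) (fun r hr => by
      have hr0 := hε.trans_le hr.1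
      have a1 := (le_abs_self _).trans (F.deriv_phi (z := z) K hr0 S hg hf)
      have a2 := mul_le_mul hr.2 (hle r hr) (avg_nonneg K hr0
        (hf.mono fun w hw => (abs_nonneg _).trans hw)) (by positivity)
      linarith) (by positivity) (by positivity) ht
  have h2 : M ≤ 2 * (avg μ l P φ z ε + 2 * R * B * G) := by nlinarith
  have hR' : R ∈ Icc ε (2 * R) := ⟨hεR, by linarith⟩
  have a1 : ∀ r ∈ Icc ε (2 * R),
      |(r ^ Fintype.card ι)⁻¹ * r⁻¹ * ∫ w, lap l P Q r z w * u i w ∂μ| ≤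
        2 * (A * M) + 2 * B * avg μ l P h z r := fun r hr => by
    linarith [F.deriv_u (z := z) K (hε.trans_le hr.1) S hg hf i, hle r hr]
  have h3 := ode_le hε hγ hγ0 (fun r hr => F.avg_hasDerivAt (z := z) K (S.lu i) hr)
    (fun r hr => (le_abs_self _).trans (a1 r hr)) (by positivity) (by positivity) hR'
  have h4 := ode_le hε hγ hγ0 (fun r hr => (F.avg_hasDerivAt (z := z) K (S.lu i) hr).fun_neg)
    (fun r hr => (neg_le_abs _).trans (a1 r hr)) (by positivity) (by positivity) hR'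
  have h5 := (F.avg_u (z := z) K hR S h0 i).trans
    (mul_le_mul_of_nonneg_left (hmax ⟨hε2, le_rfl⟩) (by positivity))
  have h6 := mul_le_mul_of_nonneg_left h2
    (by positivity : 0 ≤ 2 * 2 ^ Fintype.card ι * C / R + 4 * A * R)
  have h7 := abs_le.1 h5
  rw [abs_le]
  constructor <;> linarith [h7.1, h7.2]

theorem ker_meas (K : Ker H P Q C) {α : Type*} [MeasurableSpace α] {r : α → ℝ} {z w : α → E}
    (hr : Measurable r) (hz : Measurable z) (hw : Measurable w) :
    Measurable fun a => ker l P (r a) (z a) (w a) := by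
  unfold ker qq
  exact (hr.pow_const _).inv.mul (K.cP.continuous.measurable.comp
    ((Finset.measurable_sum _ fun i _ =>
      ((l i).continuous.measurable.comp (hz.sub hw)).pow_const 2).div (hr.pow_const 2)))

theorem Frame.lint_ker (F : Frame b l) (K : Ker H P Q C) (hr : 0 < r) :
    ∫⁻ w, ENNReal.ofReal (ker l P r z w) ∂μ = ENNReal.ofReal (mass μ l P) := by
  have T := F.test_ker (z := z) K hr
  rw [← F.integral_ker (z := z) hr, ofReal_integral_eq_lintegral_ofReal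
    (T.continuous.integrable_of_hasCompactSupport T.2) (ae_of_all _ fun w => ker_nonneg K hr)]

theorem Frame.contract (F : Frame b l) (K : Ker H P Q C) (mg : Measurable g) (mh : Measurable h)
    (g0 : ∀ x, 0 ≤ g x) {T : ℝ} :
    ∫⁻ z, ENNReal.ofReal (g z) *
        ∫⁻ r in Ioc 0 T, ∫⁻ w, ENNReal.ofReal (ker l P r z w * h w) ∂μ ∂volume ∂μ ≤
      ENNReal.ofReal (mass μ l P) * ENNReal.ofReal T *
        (∫⁻ z, ENNReal.ofReal (g z ^ 2 / 2) ∂μ + ∫⁻ z, ENNReal.ofReal (h z ^ 2 / 2) ∂μ) := by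
  have m1 : Measurable fun p : (E × ℝ) × E =>
      ENNReal.ofReal (ker l P p.1.2 p.1.1 p.2) * ENNReal.ofReal (h p.2 ^ 2 / 2) :=
    (ker_meas K (by fun_prop) (by fun_prop) (by fun_prop)).ennreal_ofReal.mul (by fun_prop)
  have m2 := m1.lintegral_prod_right' (ν := μ)
  calc _ ≤ ∫⁻ z, (ENNReal.ofReal (mass μ l P) * ENNReal.ofReal T * ENNReal.ofReal (g z ^ 2 / 2) +
          ∫⁻ r in Ioc 0 T, ∫⁻ w, ENNReal.ofReal (ker l P r z w) *
            ENNReal.ofReal (h w ^ 2 / 2) ∂μ ∂volume) ∂μ := by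
        refine lintegral_mono fun z => ?_
        rw [← lintegral_const_mul' _ _ ENNReal.ofReal_ne_top]
        calc _ ≤ ∫⁻ r in Ioc 0 T, (ENNReal.ofReal (mass μ l P) * ENNReal.ofReal (g z ^ 2 / 2) +
              ∫⁻ w, ENNReal.ofReal (ker l P r z w) * ENNReal.ofReal (h w ^ 2 / 2) ∂μ) := by
              refine setLIntegral_mono' measurableSet_Ioc fun r hr => ?_
              rw [← lintegral_const_mul' _ _ ENNReal.ofReal_ne_top, ← F.lint_ker (z := z) K hr.1,
                ← lintegral_mul_const' _ _ ENNReal.ofReal_ne_top, ← lintegral_add_left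
                ((ker_meas K measurable_const measurable_const
                  measurable_id').ennreal_ofReal.mul_const _)]
              refine lintegral_mono fun w => ?_
              have k0 := ker_nonneg (l := l) (z := z) (w := w) K hr.1
              rw [← mul_add, ← ENNReal.ofReal_add (by positivity) (by positivity),
                ← ENNReal.ofReal_mul (g0 z), ← ENNReal.ofReal_mul k0]
              exact ENNReal.ofReal_le_ofReal (by nlinarith [mul_nonneg k0 (sq_nonneg (g z - h w))])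
          _ = _ := by
              rw [lintegral_add_left measurable_const, setLIntegral_const, Real.volume_Ioc,
                sub_zero, mul_right_comm]
    _ = _ := by
        rw [lintegral_add_left (by fun_prop), lintegral_const_mul _ (by fun_prop), mul_add,
          lintegral_lintegral_swap m2.aemeasurable]
        congr 1
        rw [mul_right_comm, ← sub_zero T, ← Real.volume_Ioc, ← setLIntegral_const, sub_zero]
        refine setLIntegral_congr_fun measurableSet_Ioc fun r hr => ?_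
        have m3 : Measurable fun p : E × E =>
            ENNReal.ofReal (ker l P r p.1 p.2) * ENNReal.ofReal (h p.2 ^ 2 / 2) :=
          m1.comp (f := fun p : E × E => ((p.1, r), p.2)) (by fun_prop)
        rw [lintegral_lintegral_swap m3.aemeasurable, ← lintegral_const_mul _ (by fun_prop)]
        refine lintegral_congr fun w => ?_
        rw [lintegral_mul_const' _ _ ENNReal.ofReal_ne_top, ← F.lint_ker (z := w) K hr.1]
        simp only [ker_symm (z := w)]

theorem params {d c B : ℝ} (hd : 0 ≤ d) (hc : 0 ≤ c) (hB : 0 ≤ B) : ∃ R M D : ℝ, 0 < R ∧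
    0 ≤ M ∧ 0 ≤ D ∧ 8 * R ^ 2 * (B * (M + 1)) ≤ 1 ∧
    d * (2 * (c / R + 4 * (B * (M + 1)) * R)) ≤ M ∧ M * (2 * R * B) + d * (2 * B) ≤ D ∧
    R * D ≤ 1 / 4 := by
  obtain ⟨L, hL⟩ : ∃ L, L = 2 * d * c + 1 := ⟨_, rfl⟩
  have hL1 : 1 ≤ L := by nlinarith
  obtain ⟨X, hX⟩ : ∃ X, X = 8 * (d * B * L) + 1 + 8 * (B * L) + 8 * (d * B) := ⟨_, rfl⟩
  have p1 : 0 ≤ d * B * L := by positivity
  have p2 : 0 ≤ B * L := by positivity
  have p3 : 0 ≤ d * B := by positivity
  have hX1 : 1 ≤ X := by linarith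
  obtain ⟨R, hR⟩ : ∃ R, R = X⁻¹ := ⟨_, rfl⟩
  have hR0 : 0 < R := by rw [hR]; positivity
  have hRX : R * X = 1 := by rw [hR]; exact inv_mul_cancel₀ (by positivity)
  refine ⟨R, L * X - 1, 2 * (B * L) + 2 * (d * B), hR0, by nlinarith, by positivity, ?_, ?_, ?_,
    ?_⟩
  · have : 8 * R ^ 2 * (B * (L * X - 1 + 1)) = R * (8 * (B * L)) * (R * X) := by ring
    rw [this, hRX, mul_one, ← hRX]
    exact mul_le_mul_of_nonneg_left (by linarith) hR0.le
  · have : c / R + 4 * (B * (L * X - 1 + 1)) * R = c * X + 4 * (B * L) := by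
      rw [hR, div_inv_eq_mul, ← hR]
      linear_combination 4 * B * L * hRX
    have e : L * X = 2 * d * c * X + X := by rw [hL]; ring
    rw [this, e]
    linarith
  · have : (L * X - 1) * (2 * R * B) = 2 * (B * L) * (R * X) - 2 * R * B := by ring
    rw [this, hRX]
    linarith [(by positivity : 0 ≤ 2 * R * B)]
  · have : R * (8 * (B * L) + 8 * (d * B)) ≤ R * X :=
      mul_le_mul_of_nonneg_left (by linarith) hR0.le
    linarith

theorem Frame.step (F : Frame b l) (K : Ker H P Q C) (S : Sol μ b φ u f)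
    (h0 : ∀ᵐ w ∂μ, 0 ≤ φ w) (lh : LocallyIntegrable h μ) (hh0 : ∀ᵐ w ∂μ, 0 ≤ h w)
    {A B R M D : ℝ} (hA : 0 ≤ A) (hB : 0 ≤ B) (hf : ∀ᵐ w ∂μ, |f w| ≤ A * φ w + B * h w)
    (hR : 0 < R) (hD : 0 ≤ D) (p1 : 8 * R ^ 2 * A ≤ 1)
    (p2 : Fintype.card ι * (2 * (2 * 2 ^ Fintype.card ι * C / R + 4 * A * R)) ≤ M)
    (p3 : M * (2 * R * B) + Fintype.card ι * (2 * B) ≤ D) :
    ∀ᵐ z ∂μ, ENNReal.ofReal (mass μ l P * (∑ i, |u i z| - M * φ z)) ≤ ENNReal.ofReal D *
      ∫⁻ r in Ioc 0 (2 * R), ∫⁻ w, ENNReal.ofReal (ker l P r z w * h w) ∂μ ∂volume := by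
  filter_upwards [F.avg_tendsto K S.lφ, ae_all_iff.2 fun i => F.avg_tendsto K (S.lu i)]
    with z a2 a3
  have t1 : Tendsto (fun ε => ENNReal.ofReal (∑ i, |avg μ l P (u i) z ε| - M * avg μ l P φ z ε))
      (𝓝[>] 0) (𝓝 (ENNReal.ofReal (∑ i, |mass μ l P * u i z| - M * (mass μ l P * φ z)))) :=
    (ENNReal.continuous_ofReal.tendsto _).comp
      ((tendsto_finsetSum _ fun i _ => (a3 i).abs).sub (a2.const_mul M))
  simp only [abs_mul, abs_of_pos (F.mass_pos (μ := μ) K), ← Finset.mul_sum] at t1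
  rw [mul_left_comm, ← mul_sub] at t1
  refine le_of_tendsto t1 ?_
  filter_upwards [Ioc_mem_nhdsGT hR] with ε hε
  have hε2 : ε ≤ 2 * R := by linarith [hε.2]
  have hγ0 : ∀ r ∈ Ioc ε (2 * R), 0 ≤ avg μ l P h z r := fun r hr =>
    avg_nonneg K (hε.1.trans hr.1) hh0
  have b1 : ENNReal.ofReal (∫ s in ε..2 * R, avg μ l P h z s) ≤
      ∫⁻ r in Ioc 0 (2 * R), ∫⁻ w, ENNReal.ofReal (ker l P r z w * h w) ∂μ ∂volume := by
    have hγ : ContinuousOn (avg μ l P h z) (Icc ε (2 * R)) := fun r hr =>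
      (F.avg_hasDerivAt K lh (hε.1.trans_le hr.1)).continuousAt.continuousWithinAt
    rw [intervalIntegral.integral_of_le hε2, ofReal_integral_eq_lintegral_ofReal
      (hγ.integrableOn_Icc.mono_set Ioc_subset_Icc_self)
      ((ae_restrict_mem measurableSet_Ioc).mono hγ0)]
    refine le_trans (setLIntegral_mono' measurableSet_Ioc fun r hr => le_of_eq ?_)
      (lintegral_mono_set (Ioc_subset_Ioc_left hε.1.le))
    exact ofReal_integral_eq_lintegral_ofReal (F.int_ker K (hε.1.trans hr.1) lh)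
      (hh0.mono fun w hw => mul_nonneg (ker_nonneg K (hε.1.trans hr.1)) hw)
  have hG0 : 0 ≤ ∫ s in ε..2 * R, avg μ l P h z s := by
    rw [intervalIntegral.integral_of_le hε2]
    exact setIntegral_nonneg measurableSet_Ioc hγ0
  refine le_trans ?_ (mul_le_mul' le_rfl b1)
  rw [← ENNReal.ofReal_mul hD]
  refine ENNReal.ofReal_le_ofReal ?_
  have b2 := Finset.sum_le_card_nsmul Finset.univ _ _ fun i _ =>
    F.pointwise (z := z) K S h0 lh hh0 hA hB hf hε.1 hε.2 p1 i
  rw [Finset.card_univ, nsmul_eq_mul] at b2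
  have b4 := avg_nonneg (l := l) (z := z) K hε.1 h0
  have b5 := mul_le_mul_of_nonneg_right p2
    (by positivity : 0 ≤ avg μ l P φ z ε + 2 * R * B * ∫ s in ε..2 * R, avg μ l P h z s)
  have b6 := mul_le_mul_of_nonneg_right p3 hG0
  linarith

/-- The gradient estimate, with an error term `e`. -/
theorem Frame.grad_bound (F : Frame b l) {B : ℝ} (hB : 0 ≤ B) : ∃ M : ℝ, 0 ≤ M ∧
    ∀ (φ f e : E → ℝ) (u : ι → E → ℝ), MemLp φ 2 μ → (∀ i, MemLp (u i) 2 μ) → MemLp e 2 μ →
      Sol μ b φ u f → (∀ᵐ x ∂μ, 0 ≤ φ x) → (∀ᵐ x ∂μ, 0 ≤ e x) →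
      (∀ᵐ x ∂μ, |f x| ≤ B * (∑ i, |u i x| + φ x + e x)) →
      ∫ x, max (∑ i, |u i x| - M * φ x) 0 ^ 2 ∂μ ≤ 2 * ∫ x, e x ^ 2 ∂μ := by
  obtain ⟨H, P, Q, C, K⟩ := exists_ker
  have hC := K.C0
  obtain ⟨R, M, D, hR, hM, hD, p1, p2, p3, p4⟩ := params (d := Fintype.card ι)
    (c := 2 * 2 ^ Fintype.card ι * C) (by positivity) (by positivity) hB
  refine ⟨M, hM, fun φ f e u hφ hu he S h0 he0 hf => ?_⟩
  have hm := F.mass_pos (μ := μ) K
  have hU : MemLp (fun x => ∑ i, |u i x| - M * φ x) 2 μ :=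
    (memLp_finsetSum _ fun i _ => (hu i).abs).sub (hφ.const_mul M)
  have hg' : MemLp (fun x => max (∑ i, |u i x| - M * φ x) 0) 2 μ := hU.pos_part
  obtain ⟨g, mg, g0, hgg⟩ := hg'.1.aemeasurable.exists_measurable_nonneg
    (ae_of_all _ fun x => le_max_right _ _)
  have hg : MemLp g 2 μ := hg'.ae_eq hgg
  obtain ⟨h, mh, hh0, hhh⟩ := (hg.add he).1.aemeasurable.exists_measurable_nonneg
    (he0.mono fun x hx => add_nonneg (g0 x) hx)
  have hh : MemLp h 2 μ := (hg.add he).ae_eq hhh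
  have hpt := F.step K S h0 (hh.locallyIntegrable (by norm_num)) (ae_of_all _ hh0)
    (by positivity) hB (by
      filter_upwards [hf, hgg, hhh] with x a1 a2 a3
      have a4 : ∑ i, |u i x| - M * φ x ≤ g x := by rw [← a2]; exact le_max_left _ _
      rw [← a3, Pi.add_apply]
      linarith [mul_le_mul_of_nonneg_left a4 hB]) hR hD p1 p2 p3
  have sq : ∀ {k : E → ℝ}, MemLp k 2 μ →
      ∫⁻ z, ENNReal.ofReal (k z ^ 2 / 2) ∂μ = ENNReal.ofReal ((∫ z, k z ^ 2 ∂μ) / 2) := by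
    intro k hk
    rw [← integral_div, ofReal_integral_eq_lintegral_ofReal (hk.integrable_sq.div_const 2)
      (ae_of_all _ fun x => by positivity)]
  have n0 : ∀ k : E → ℝ, 0 ≤ ∫ z, k z ^ 2 ∂μ := fun k => integral_nonneg fun x => sq_nonneg _
  have c1 := mul_le_mul' (le_refl (ENNReal.ofReal D)) (F.contract (μ := μ) K mg mh g0 (T := 2 * R))
  rw [← lintegral_const_mul' _ _ ENNReal.ofReal_ne_top] at c1
  have c2 : ENNReal.ofReal (mass μ l P * ∫ z, g z ^ 2 ∂μ) ≤ _ := le_trans (by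
    rw [← integral_const_mul, ofReal_integral_eq_lintegral_ofReal
      (hg.integrable_sq.const_mul _) (ae_of_all _ fun x => by positivity)]
    refine lintegral_mono_ae ?_
    filter_upwards [hpt, hgg] with z hz a1
    rw [mul_left_comm, pow_two, ← mul_assoc, mul_comm, ENNReal.ofReal_mul (g0 z)]
    refine mul_le_mul' le_rfl (le_trans (le_of_eq ?_) hz)
    rw [← a1, mul_max_of_nonneg _ _ hm.le, mul_zero, ENNReal.ofReal_max, ENNReal.ofReal_zero,
      max_eq_left zero_le]) c1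
  have ng := n0 g
  have nh := n0 h
  rw [sq hg, sq hh, ← ENNReal.ofReal_add (by positivity) (by positivity),
    ← ENNReal.ofReal_mul hm.le, ← ENNReal.ofReal_mul (by positivity),
    ← ENNReal.ofReal_mul (by positivity), ENNReal.ofReal_le_ofReal_iff (by positivity)] at c2
  have c3 : ∫ z, h z ^ 2 ∂μ ≤ 2 * ∫ z, g z ^ 2 ∂μ + 2 * ∫ z, e z ^ 2 ∂μ := by
    rw [← integral_const_mul, ← integral_const_mul,
      ← integral_add (hg.integrable_sq.const_mul _) (he.integrable_sq.const_mul _)]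
    refine integral_mono_ae hh.integrable_sq
      ((hg.integrable_sq.const_mul _).add (he.integrable_sq.const_mul _)) ?_
    filter_upwards [hhh] with x hx
    rw [← hx, Pi.add_apply]
    nlinarith [sq_nonneg (g x - e x)]
  have c5 : ∫ z, g z ^ 2 ∂μ ≤ R * D * (∫ z, g z ^ 2 ∂μ + ∫ z, h z ^ 2 ∂μ) := by
    refine le_of_mul_le_mul_left (c2.trans (le_of_eq ?_)) hm
    ring
  rw [integral_congr_ae (hgg.mono fun x hx => congrArg (· ^ 2) hx : (fun x =>
    max (∑ i, |u i x| - M * φ x) 0 ^ 2) =ᵐ[μ] fun x => g x ^ 2)]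
  linarith [mul_le_mul_of_nonneg_right p4 (add_nonneg ng nh)]

end

end Vale.Agent.N363
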