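import Vale.Agent.N363.Heat

/-!
# P363: the logarithmic gradient of a nonnegative Coulomb eigenfunction is bounded
-/

namespace Vale.Agent.N363

open MeasureTheory Filter Topology Set Metric
open Vale.Agent.P363.R.Sob
open Vale.Agent.P363.Stmt (R3)
open scoped ContDiff ENNReal RealInnerProductSpace

noncomputable section

variable {E : Type*} [NormedAddCommGroup E] [NormedSpace ℝ E] [FiniteDimensional ℝ E]
  [MeasurableSpace E] [BorelSpace E] {μ : Measure E} [μ.IsAddHaarMeasure]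
  {ι : Type*} [Fintype ι] [DecidableEq ι] {b : ι → E} {l : ι → E →L[ℝ] ℝ}
  {ψ f k : E → ℝ} {g : ι → E → ℝ}

/-- The directional derivative. -/
def dd (v : E) (k : E → ℝ) (x : E) : ℝ := fderiv ℝ k x v

omit [FiniteDimensional ℝ E] [MeasurableSpace E] [BorelSpace E] in
theorem dd_smooth (hk : ContDiff ℝ ∞ k) (v : E) : ContDiff ℝ ∞ (dd v k) :=
  (hk.fderiv_right (m := ∞) (by simp)).clm_apply contDiff_const

omit [FiniteDimensional ℝ E] [MeasurableSpace E] [BorelSpace E] in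
theorem dd_mul {k' : E → ℝ} (hk : ContDiff ℝ ∞ k) (hk' : ContDiff ℝ ∞ k') (v x : E) :
    fderiv ℝ (fun x => k x * k' x) x v = dd v k x * k' x + k x * dd v k' x := by
  rw [fderiv_fun_mul (hk.differentiable (by simp) x) (hk'.differentiable (by simp) x)]
  simp only [dd, add_apply, smul_apply, smul_eq_mul]
  ring

omit [DecidableEq ι] in
theorem Sol.mul (S : Sol μ b ψ g f) (hk : ContDiff ℝ ∞ k) :
    Sol μ b (fun x => k x * ψ x) (fun i x => dd (b i) k x * ψ x + k x * g i x)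
      fun x => k x * f x - ∑ i, dd (b i) k x * g i x -
        1 / 2 * ∑ i, dd (b i) (dd (b i) k) x * ψ x := by
  have c1 := fun i => dd_smooth hk (b i)
  have c2 := fun i => dd_smooth (c1 i) (b i)
  have L : ∀ {a u : E → ℝ}, ContDiff ℝ ∞ a → LocallyIntegrable u μ →
      LocallyIntegrable (fun x => a x * u x) μ := fun ha hu => locInt_cont_smul hu ha.continuous
  refine ⟨L hk S.lφ, fun i => (L (c1 i) S.lφ).add (L hk (S.lu i)),
    ((L hk S.lf).sub (locallyIntegrable_finsetSum _ fun i _ => L (c1 i) (S.lu i))).sub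
      (L contDiff_const (locallyIntegrable_finsetSum _ fun i _ => L (c2 i) S.lφ)),
    fun i => (S.wd i).smooth_smul hk S.lφ (S.lu i), fun η hη => ?_⟩
  have I : ∀ {a u ζ : E → ℝ}, ContDiff ℝ ∞ a → LocallyIntegrable u μ → Test ζ →
      Integrable (fun x => ζ x * (a x * u x)) μ := fun ha hu hζ => hζ.integrable_smul (L ha hu)
  have e1 := S.eq _ (Test.mul' hk hη)
  have e2 : ∀ i, ∫ x, fderiv ℝ η x (b i) * (dd (b i) k x * ψ x + k x * g i x) ∂μ =
      ∫ x, fderiv ℝ (fun x => k x * η x) x (b i) * g i x ∂μ -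
        2 * ∫ x, η x * (dd (b i) k x * g i x) ∂μ -
        ∫ x, η x * (dd (b i) (dd (b i) k) x * ψ x) ∂μ := by
    intro i
    have a1 := S.wd i _ (Test.mul' (c1 i) hη)
    simp only [smul_eq_mul, dd_mul (c1 i) hη.1] at a1
    have a2 : ∫ x, (dd (b i) (dd (b i) k) x * η x + dd (b i) k x * dd (b i) η x) * ψ x ∂μ =
        ∫ x, η x * (dd (b i) (dd (b i) k) x * ψ x) ∂μ +
          ∫ x, fderiv ℝ η x (b i) * (dd (b i) k x * ψ x) ∂μ := by
      rw [← integral_add (I (c2 i) S.lφ hη) (I (c1 i) S.lφ (hη.fderiv _))]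
      congr 1
      ext x
      simp only [dd]
      ring
    have a3 : ∫ x, fderiv ℝ (fun x => k x * η x) x (b i) * g i x ∂μ =
        ∫ x, η x * (dd (b i) k x * g i x) ∂μ + ∫ x, fderiv ℝ η x (b i) * (k x * g i x) ∂μ := by
      rw [← integral_add (I (c1 i) (S.lu i) hη) (I hk (S.lu i) (hη.fderiv _))]
      congr 1
      ext x
      rw [dd_mul hk hη.1]
      simp only [dd]
      ring
    have a4 : ∫ x, dd (b i) k x * η x * g i x ∂μ = ∫ x, η x * (dd (b i) k x * g i x) ∂μ := by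
      congr 1
      ext x
      ring
    simp only [mul_add]
    rw [integral_add (I (c1 i) S.lφ (hη.fderiv _)) (I hk (S.lu i) (hη.fderiv _))]
    linarith
  have e3 : ∫ x, η x * (k x * f x - ∑ i, dd (b i) k x * g i x -
        1 / 2 * ∑ i, dd (b i) (dd (b i) k) x * ψ x) ∂μ =
      ∫ x, k x * η x * f x ∂μ - ∑ i, ∫ x, η x * (dd (b i) k x * g i x) ∂μ -
        1 / 2 * ∑ i, ∫ x, η x * (dd (b i) (dd (b i) k) x * ψ x) ∂μ := by
    have i1 := integrable_finsetSum Finset.univ fun i _ => I (c1 i) (S.lu i) hη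
    have i2 := integrable_finsetSum Finset.univ fun i _ => I (c2 i) S.lφ hη
    have i3 : Integrable (fun x => k x * η x * f x) μ := (Test.mul' hk hη).integrable_smul S.lf
    rw [← integral_finsetSum _ fun i _ => I (c1 i) (S.lu i) hη,
      ← integral_finsetSum _ fun i _ => I (c2 i) S.lφ hη, ← integral_const_mul,
      ← integral_sub i3 i1, ← integral_sub (i3.sub' i1) (i2.const_mul _)]
    congr 1
    ext x
    simp only [← Finset.mul_sum]
    ring
  simp only [e2, Finset.sum_sub_distrib, ← Finset.mul_sum]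
  rw [e1, e3]
  ring

omit [FiniteDimensional ℝ E] [MeasurableSpace E] [BorelSpace E] in
theorem dd_exp (hk : ContDiff ℝ ∞ k) (v : E) :
    dd v (fun x => Real.exp (-k x)) = fun x => Real.exp (-k x) * -dd v k x := by
  ext x
  have := (hk.differentiable (by simp) x).hasFDerivAt.fun_neg.exp
  simp only [dd, this.fderiv, smul_apply, neg_apply, smul_eq_mul]

omit [FiniteDimensional ℝ E] [MeasurableSpace E] [BorelSpace E] in
theorem dd_exp2 (hk : ContDiff ℝ ∞ k) (v x : E) :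
    dd v (dd v fun x => Real.exp (-k x)) x =
      Real.exp (-k x) * (dd v k x ^ 2 - dd v (dd v k) x) := by
  rw [dd_exp hk, dd, dd_mul hk.neg.exp (dd_smooth hk v).neg, dd_exp hk]
  have : dd v (fun x => -dd v k x) x = -dd v (dd v k) x := by
    rw [dd, fderiv_fun_neg]
    rfl
  rw [this]
  ring

theorem Frame.transform (F : Frame b l) {c : ℝ} (hc : 0 ≤ c) : ∃ M : ℝ, 0 ≤ M ∧
    ∀ (ψ V k ϖ : E → ℝ) (g : ι → E → ℝ), MemLp ψ 2 μ → (∀ i, MemLp (g i) 2 μ) →
      MemLp (fun x => ϖ x * ψ x) 2 μ → Sol μ b ψ g (fun x => V x * ψ x) → (∀ᵐ x ∂μ, 0 ≤ ψ x) →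
      ContDiff ℝ ∞ k → (∀ x, |k x| ≤ c) → (∀ x i, |dd (b i) k x| ≤ c) → (∀ x, 0 ≤ ϖ x) →
      (∀ x, |V x + 1 / 2 * ∑ i, dd (b i) (dd (b i) k) x| ≤ c + ϖ x) →
      ∫ x, max (∑ i, |g i x| - M * ψ x) 0 ^ 2 ∂μ ≤
        2 * Real.exp c ^ 4 * ∫ x, (ϖ x * ψ x) ^ 2 ∂μ := by
  obtain ⟨d, hd⟩ : ∃ d : ℝ, d = Fintype.card ι := ⟨_, rfl⟩
  have hd0 : 0 ≤ d := by rw [hd]; positivity
  obtain ⟨M, hM, H⟩ := F.grad_bound (μ := μ) (B := 1 + c + 2 * d * c ^ 2) (by positivity)
  refine ⟨M + d * c, by positivity, fun ψ V k ϖ g hψ hg hϖ S h0 hk k0 k1 ϖ0 k2 => ?_⟩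
  have hk' : ContDiff ℝ ∞ fun x => Real.exp (-k x) := hk.neg.exp
  have b0 : ∀ x, Real.exp (-k x) ≤ Real.exp c := fun x =>
    Real.exp_le_exp.2 ((neg_le_abs _).trans (k0 x))
  have B : ∀ {a u : E → ℝ} {C : ℝ}, Continuous a → (∀ x, |a x| ≤ C) → MemLp u 2 μ →
      MemLp (fun x => a x * u x) 2 μ := fun {a u C} ha hC hu =>
    hu.of_le_mul (c := C) (ha.aestronglyMeasurable.mul hu.1) (ae_of_all _ fun x => by
      rw [norm_mul]
      exact mul_le_mul_of_nonneg_right (hC x) (norm_nonneg _))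
  have b1 : ∀ x, |Real.exp (-k x)| ≤ Real.exp c := fun x => by
    rw [abs_of_pos (Real.exp_pos _)]
    exact b0 x
  have m0 := B hk'.continuous b1 hψ
  have m1 : ∀ i, MemLp (fun x => dd (b i) (fun x => Real.exp (-k x)) x * ψ x +
      Real.exp (-k x) * g i x) 2 μ := fun i =>
    (B (C := Real.exp c * c) (dd_smooth hk' _).continuous (fun x => by
      rw [dd_exp hk, abs_mul, abs_neg]
      exact mul_le_mul (b1 x) (k1 x i) (abs_nonneg _) (Real.exp_pos _).le) hψ).add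
      (B hk'.continuous b1 (hg i))
  have key : ∀ x i, 0 ≤ ψ x → Real.exp (-k x) * |g i x| ≤
      |dd (b i) (fun x => Real.exp (-k x)) x * ψ x + Real.exp (-k x) * g i x| +
        c * (Real.exp (-k x) * ψ x) := by
    intro x i hx
    have e : dd (b i) (fun x => Real.exp (-k x)) x * ψ x + Real.exp (-k x) * g i x =
        Real.exp (-k x) * (g i x - dd (b i) k x * ψ x) := by
      rw [dd_exp hk]
      ring
    rw [e, abs_mul, abs_of_pos (Real.exp_pos _), mul_left_comm, ← mul_add]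
    refine mul_le_mul_of_nonneg_left ?_ (Real.exp_pos _).le
    have a1 := abs_sub_abs_le_abs_sub (g i x) (dd (b i) k x * ψ x)
    rw [abs_mul, abs_of_nonneg hx] at a1
    linarith [mul_le_mul_of_nonneg_right (k1 x i) hx]
  have key2 : ∀ x, 0 ≤ ψ x → Real.exp (-k x) * ∑ i, |g i x| ≤
      ∑ i, |dd (b i) (fun x => Real.exp (-k x)) x * ψ x + Real.exp (-k x) * g i x| +
        d * c * (Real.exp (-k x) * ψ x) := by
    intro x hx
    have := Finset.sum_le_sum fun i (_ : i ∈ Finset.univ) => key x i hx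
    rwa [← Finset.mul_sum, Finset.sum_add_distrib, Finset.sum_const, Finset.card_univ,
      nsmul_eq_mul, ← hd, ← mul_assoc] at this
  have h := H _ _ (fun x => Real.exp c * (ϖ x * ψ x)) _ m0 m1 (hϖ.const_mul _) (S.mul hk')
    (h0.mono fun x hx => mul_nonneg (Real.exp_pos _).le hx)
    (h0.mono fun x hx => mul_nonneg (Real.exp_pos _).le (mul_nonneg (ϖ0 x) hx))
    (h0.mono fun x hx => by
      have e0 := Real.exp_pos (-k x)
      have e : Real.exp (-k x) * (V x * ψ x) -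
          ∑ i, dd (b i) (fun x => Real.exp (-k x)) x * g i x -
          1 / 2 * ∑ i, dd (b i) (dd (b i) fun x => Real.exp (-k x)) x * ψ x =
          Real.exp (-k x) * ((V x + 1 / 2 * ∑ i, dd (b i) (dd (b i) k) x) * ψ x +
            ∑ i, dd (b i) k x * g i x - 1 / 2 * (∑ i, dd (b i) k x ^ 2) * ψ x) := by
        simp only [dd_exp2 hk]
        simp only [dd_exp hk, mul_assoc, mul_neg, neg_mul, Finset.sum_neg_distrib,
          ← Finset.mul_sum, ← Finset.sum_mul, Finset.sum_sub_distrib]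
        ring
      have a1 : |∑ i, dd (b i) k x * g i x| ≤ c * ∑ i, |g i x| := by
        rw [Finset.mul_sum]
        refine (Finset.abs_sum_le_sum_abs _ _).trans (Finset.sum_le_sum fun i _ => ?_)
        rw [abs_mul]
        exact mul_le_mul_of_nonneg_right (k1 x i) (abs_nonneg _)
      have a2 : ∑ i, dd (b i) k x ^ 2 ≤ d * c ^ 2 := by
        have := Finset.sum_le_card_nsmul Finset.univ _ _ fun i _ =>
          sq_le_sq' (abs_le.1 (k1 x i)).1 (abs_le.1 (k1 x i)).2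
        rwa [Finset.card_univ, nsmul_eq_mul, ← hd] at this
      have a3 : 0 ≤ ∑ i, dd (b i) k x ^ 2 := Finset.sum_nonneg fun i _ => sq_nonneg _
      have a4 : |(V x + 1 / 2 * ∑ i, dd (b i) (dd (b i) k) x) * ψ x +
          ∑ i, dd (b i) k x * g i x - 1 / 2 * (∑ i, dd (b i) k x ^ 2) * ψ x| ≤
          (c + ϖ x) * ψ x + c * ∑ i, |g i x| + d * c ^ 2 * ψ x := by
        have a5 := abs_le.1 (k2 x)
        have a6 := abs_le.1 a1
        have a7 := mul_le_mul_of_nonneg_right a2 hx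
        have a8 := mul_nonneg a3 hx
        rw [abs_le]
        constructor <;>
          linarith [mul_le_mul_of_nonneg_right a5.1 hx, mul_le_mul_of_nonneg_right a5.2 hx]
      rw [e, abs_mul, abs_of_pos e0]
      refine (mul_le_mul_of_nonneg_left a4 e0.le).trans ?_
      have a9 := mul_le_mul_of_nonneg_left (key2 x hx) hc
      have a10 := mul_le_mul_of_nonneg_right (b0 x) (mul_nonneg (ϖ0 x) hx)
      have a11 : 0 ≤ Real.exp c * (ϖ x * ψ x) := by have := ϖ0 x; positivity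
      have a12 : 0 ≤ ∑ i, |dd (b i) (fun x => Real.exp (-k x)) x * ψ x +
        Real.exp (-k x) * g i x| := Finset.sum_nonneg fun i _ => abs_nonneg _
      have a13 : 0 ≤ Real.exp (-k x) * ψ x := by positivity
      have a14 : 0 ≤ 2 * d * c ^ 2 := by positivity
      nlinarith [mul_nonneg a14 a11, mul_nonneg a14 a12, mul_nonneg hc a11])
  simp only [mul_pow (Real.exp c), integral_const_mul] at h
  have hU := ((memLp_finsetSum Finset.univ fun i _ => (m1 i).abs).sub (m0.const_mul M)).pos_part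
  refine le_trans (integral_mono_of_nonneg (ae_of_all _ fun x => sq_nonneg _)
    (hU.integrable_sq.const_mul (Real.exp c ^ 2)) (h0.mono fun x hx => ?_)) ?_
  · simp only [← mul_pow]
    refine pow_le_pow_left₀ (le_max_right _ _) (max_le ?_ (by positivity)) 2
    have e1 : 1 ≤ Real.exp c * Real.exp (-k x) := by
      rw [← Real.exp_add]
      exact Real.one_le_exp (by linarith [(abs_le.1 (k0 x)).2])
    refine le_trans (le_max_left _ 0) (le_trans (le_mul_of_one_le_left (le_max_right _ _) e1) ?_)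
    rw [mul_assoc, mul_max_of_nonneg _ _ (Real.exp_pos _).le, mul_zero]
    refine mul_le_mul_of_nonneg_left (max_le_max ?_ le_rfl) (Real.exp_pos _).le
    have := key2 x hx
    simp only [Pi.sub_apply, Pi.abs_apply]
    linarith
  · rw [integral_const_mul]
    refine (mul_le_mul_of_nonneg_left h (by positivity)).trans (le_of_eq ?_)
    ring

/-- The regularised distance. -/
def rd (p : E →L[ℝ] R3) (R : R3) (δ : ℝ) (x : E) : ℝ := √(‖p x - R‖ ^ 2 + δ ^ 2)

variable {p : E →L[ℝ] R3} {R : R3} {δ : ℝ}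

omit [FiniteDimensional ℝ E] [MeasurableSpace E] [BorelSpace E] in
theorem rd_pos (hδ : 0 < δ) (x : E) : 0 < rd p R δ x := Real.sqrt_pos.2 (by positivity)

omit [FiniteDimensional ℝ E] [MeasurableSpace E] [BorelSpace E] in
theorem rd_sq (x : E) : rd p R δ x ^ 2 = ‖p x - R‖ ^ 2 + δ ^ 2 := Real.sq_sqrt (by positivity)

omit [FiniteDimensional ℝ E] [MeasurableSpace E] [BorelSpace E] in
theorem le_rd (x : E) : ‖p x - R‖ ≤ rd p R δ x := Real.le_sqrt_of_sq_le (by nlinarith)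

omit [FiniteDimensional ℝ E] [MeasurableSpace E] [BorelSpace E] in
theorem rd_smooth (hδ : 0 < δ) : ContDiff ℝ ∞ (rd p R δ) :=
  (((contDiff_norm_sq ℝ).comp (p.contDiff.sub contDiff_const)).add contDiff_const).sqrt
    fun x => (add_pos_of_nonneg_of_pos (sq_nonneg _) (pow_pos hδ 2)).ne'

omit [FiniteDimensional ℝ E] [MeasurableSpace E] [BorelSpace E] in
theorem dd_rd (hδ : 0 < δ) (v : E) :
    dd v (rd p R δ) = fun x => ⟪p x - R, p v⟫ * (rd p R δ x)⁻¹ := by
  ext x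
  have h1 : HasFDerivAt (fun x => p x - R) p x := p.hasFDerivAt.sub_const R
  have h2 := ((h1.norm_sq).add_const (δ ^ 2)).sqrt (by positivity)
  have h3 : fderiv ℝ (rd p R δ) x = _ := h2.fderiv
  have h4 := rd_pos (p := p) (R := R) hδ x
  rw [dd, h3]
  simp only [smul_apply, ContinuousLinearMap.comp_apply, innerSL_apply_apply, smul_eq_mul,
    nsmul_eq_mul, Nat.cast_ofNat]
  unfold rd at h4 ⊢
  field_simp

omit [FiniteDimensional ℝ E] [MeasurableSpace E] [BorelSpace E] in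
theorem dd_rd2 (hδ : 0 < δ) (v x : E) : dd v (dd v (rd p R δ)) x =
    ‖p v‖ ^ 2 / rd p R δ x - ⟪p x - R, p v⟫ ^ 2 / rd p R δ x ^ 3 := by
  have h4 := rd_pos (p := p) (R := R) hδ x
  have h1 : HasFDerivAt (fun x => ⟪p x - R, p v⟫) ((innerSL ℝ (p v)).comp p) x := by
    have := (innerSL ℝ (p v)).hasFDerivAt.comp x (p.hasFDerivAt.sub_const R)
    simpa only [Function.comp_def, innerSL_apply_apply, real_inner_comm] using this
  have h2 : HasFDerivAt (fun x => (rd p R δ x)⁻¹) _ x := (hasDerivAt_inv h4.ne').comp_hasFDerivAt x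
    ((rd_smooth (p := p) (R := R) hδ).differentiable (by simp) x).hasFDerivAt
  have h3 := congrFun (dd_rd (p := p) (R := R) hδ v) x
  rw [dd_rd hδ, dd, (h1.fun_mul h2).fderiv]
  simp only [dd] at h3
  simp only [add_apply, smul_apply, ContinuousLinearMap.comp_apply, innerSL_apply_apply,
    smul_eq_mul, h3, Function.comp_apply, real_inner_self_eq_norm_sq]
  field_simp
  ring

/-- One half of the Laplacian of the regularised distance. -/
def tt (δ t : ℝ) : ℝ := 1 / √(t ^ 2 + δ ^ 2) + δ ^ 2 / (2 * √(t ^ 2 + δ ^ 2) ^ 3)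

theorem tt_bounds (hδ : 0 < δ) (t : ℝ) : 0 ≤ tt δ t ∧ tt δ t ≤ 3 / 2 / √(t ^ 2 + δ ^ 2) := by
  have h : 0 < √(t ^ 2 + δ ^ 2) := Real.sqrt_pos.2 (by positivity)
  have h2 : √(t ^ 2 + δ ^ 2) ^ 2 = t ^ 2 + δ ^ 2 := Real.sq_sqrt (by positivity)
  unfold tt
  refine ⟨by positivity, ?_⟩
  have : δ ^ 2 / (2 * √(t ^ 2 + δ ^ 2) ^ 3) ≤ 1 / 2 / √(t ^ 2 + δ ^ 2) := by
    rw [div_le_div_iff₀ (by positivity) h]
    nlinarith [mul_nonneg h.le (sq_nonneg t)]
  linarith [add_div (1 : ℝ) (1 / 2) √(t ^ 2 + δ ^ 2), show (1 : ℝ) + 1 / 2 = 3 / 2 by norm_num,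
    congrArg (· / √(t ^ 2 + δ ^ 2)) (show (1 : ℝ) + 1 / 2 = 3 / 2 by norm_num)]

theorem tt_tendsto {t : ℝ} (ht : 0 < t) : Tendsto (fun δ => tt δ t) (𝓝[>] 0) (𝓝 (1 / t)) := by
  have h : ContinuousAt (fun δ => tt δ t) 0 := by
    have : √(t ^ 2 + 0 ^ 2) ≠ 0 := by positivity
    unfold tt
    fun_prop (disch := positivity)
  have e : tt 0 t = 1 / t := by simp [tt, Real.sqrt_sq ht.le]
  rw [← e]
  exact h.tendsto.mono_left nhdsWithin_le_nhds

omit [FiniteDimensional ℝ E] [MeasurableSpace E] [BorelSpace E] [DecidableEq ι] in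
theorem lap_rd (hδ : 0 < δ) {lam : ℝ} (h1 : ∀ y, ∑ i, ⟪y, p (b i)⟫ ^ 2 = lam * ‖y‖ ^ 2)
    (h2 : ∑ i, ‖p (b i)‖ ^ 2 = 3 * lam) (x : E) :
    ∑ i, dd (b i) (dd (b i) (rd p R δ)) x = 2 * lam * tt δ ‖p x - R‖ := by
  simp only [dd_rd2 hδ, Finset.sum_sub_distrib, ← Finset.sum_div, h1, h2]
  have h4 := rd_pos (p := p) (R := R) hδ x
  have h5 := rd_sq (p := p) (R := R) (δ := δ) x
  have e : tt δ ‖p x - R‖ = 1 / rd p R δ x + δ ^ 2 / (2 * rd p R δ x ^ 3) := rfl
  rw [e, show ‖p x - R‖ ^ 2 = rd p R δ x ^ 2 - δ ^ 2 by linarith]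
  field_simp
  ring

omit [DecidableEq ι] in
theorem ae_ne {lam : ℝ} (hl : 0 < lam) (h2 : ∑ i, ‖p (b i)‖ ^ 2 = 3 * lam) :
    ∀ᵐ x ∂μ, 0 < ‖p x - R‖ := by
  have h := Measure.addHaar_affineSubspace μ
    (AffineSubspace.comap p.toLinearMap.toAffineMap (affineSpan ℝ {R})) (fun h => by
      have h3 : ∀ x, p x = R := fun x => by
        have : x ∈ AffineSubspace.comap p.toLinearMap.toAffineMap (affineSpan ℝ {R}) := by
          rw [h]; trivial
        simpa using this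
      have h4 : ∀ x, p x = 0 := fun x => by rw [h3 x, ← h3 0, map_zero]
      simp only [h4, norm_zero] at h2
      simp at h2
      linarith)
  filter_upwards [measure_eq_zero_iff_ae_notMem.1 h] with x hx
  rw [norm_pos_iff, sub_ne_zero]
  simpa using hx

omit [FiniteDimensional ℝ E] [MeasurableSpace E] [BorelSpace E] in
theorem dd_sum {α : Type*} [Fintype α] {k k' : α → E → ℝ} (c : α → ℝ)
    (hk : ∀ a, ContDiff ℝ ∞ (k a)) (hk' : ∀ a, ContDiff ℝ ∞ (k' a)) (v : E) :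
    dd v (fun x => ∑ a, c a * (k a x - k' a x)) =
      fun x => ∑ a, c a * (dd v (k a) x - dd v (k' a) x) := by
  ext x
  have := HasFDerivAt.fun_sum (u := Finset.univ) fun a _ =>
    (((hk a).differentiable (by simp) x).hasFDerivAt.fun_sub
      ((hk' a).differentiable (by simp) x).hasFDerivAt).const_mul (c a)
  simp only [dd, this.fderiv, sum_apply, smul_apply, sub_apply, smul_eq_mul]

/-- The main estimate. -/
theorem Frame.log_grad (F : Frame b l) {α : Type*} [Fintype α] (p : α → E →L[ℝ] R3)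
    (R : α → R3) (c lam : α → ℝ) (hl : ∀ a, 0 < lam a)
    (h1 : ∀ a y, ∑ i, ⟪y, p a (b i)⟫ ^ 2 = lam a * ‖y‖ ^ 2)
    (h2 : ∀ a, ∑ i, ‖p a (b i)‖ ^ 2 = 3 * lam a) (e : ℝ) : ∃ M : ℝ, 0 ≤ M ∧
    ∀ (ψ : E → ℝ) (g : ι → E → ℝ), MemLp ψ 2 μ → (∀ i, MemLp (g i) 2 μ) →
      (∀ a, MemLp (fun x => 1 / ‖p a x - R a‖ * ψ x) 2 μ) →
      Sol μ b ψ g (fun x => (e - ∑ a, c a / ‖p a x - R a‖) * ψ x) → (∀ᵐ x ∂μ, 0 ≤ ψ x) →
      ∀ᵐ x ∂μ, ∑ i, |g i x| ≤ M * ψ x := by
  obtain ⟨C, hC⟩ : ∃ C, C = |e| + ∑ a, (|c a| * (3 / 2) + |c a / lam a| * (2 + 6 * lam a)) :=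
    ⟨_, rfl⟩
  have s0 : ∀ a, 0 ≤ |c a / lam a| * (2 + 6 * lam a) := fun a => by have := hl a; positivity
  have C1 : ∑ a, |c a / lam a| * (2 + 6 * lam a) ≤ C := by
    rw [hC, Finset.sum_add_distrib]
    have : 0 ≤ ∑ a, |c a| * (3 / 2) := by positivity
    linarith [abs_nonneg e]
  have C2 : |e| + ∑ a, |c a| * (3 / 2) ≤ C := by
    rw [hC, Finset.sum_add_distrib]
    linarith [Finset.sum_nonneg fun a (_ : a ∈ Finset.univ) => s0 a]
  obtain ⟨M, hM, H⟩ := F.transform (μ := μ) ((Finset.sum_nonneg fun a _ => s0 a).trans C1)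
  refine ⟨M, hM, fun ψ g hψ hg hp S h0 => ?_⟩
  set ϖ : ℝ → E → ℝ := fun δ x => ∑ a, |c a| * |tt δ ‖p a x - R a‖ - 1 / ‖p a x - R a‖| with hϖ
  have ϖ0 : ∀ δ x, 0 ≤ ϖ δ x := fun δ x => by positivity
  have hne : ∀ᵐ x ∂μ, ∀ a, 0 < ‖p a x - R a‖ := ae_all_iff.2 fun a => ae_ne (hl a) (h2 a)
  have hD : MemLp (fun x => ∑ a, |c a| * |1 / ‖p a x - R a‖ * ψ x|) 2 μ :=
    memLp_finsetSum _ fun a _ => (hp a).abs.const_mul _
  have mϖ : ∀ δ, AEStronglyMeasurable (fun x => ϖ δ x * ψ x) μ := fun δ => by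
    refine AEStronglyMeasurable.mul (Measurable.aestronglyMeasurable ?_) hψ.1
    have : ∀ a, Measurable fun x => ‖p a x - R a‖ := fun a => by fun_prop
    simp only [hϖ, tt]
    fun_prop
  have bϖ : ∀ δ, 0 < δ → ∀ᵐ x ∂μ, |ϖ δ x * ψ x| ≤ ∑ a, |c a| * |1 / ‖p a x - R a‖ * ψ x| := by
    intro δ hδ
    filter_upwards [hne] with x hx
    rw [abs_mul, abs_of_nonneg (ϖ0 δ x), Finset.sum_mul]
    refine Finset.sum_le_sum fun a _ => ?_
    rw [mul_assoc, abs_mul]
    refine mul_le_mul_of_nonneg_left (mul_le_mul_of_nonneg_right ?_ (abs_nonneg _)) (abs_nonneg _)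
    have a1 := tt_bounds hδ ‖p a x - R a‖
    have a2 : 3 / 2 / √(‖p a x - R a‖ ^ 2 + δ ^ 2) ≤ 3 / 2 / ‖p a x - R a‖ :=
      div_le_div_of_nonneg_left (by norm_num) (hx a) (le_rd x)
    have a3 : 0 < 1 / ‖p a x - R a‖ := one_div_pos.2 (hx a)
    rw [div_eq_mul_one_div _ ‖p a x - R a‖] at a2
    rw [abs_of_pos a3, abs_le]
    constructor <;> linarith [a1.1, a1.2]
  have lim : Tendsto (fun δ => ∫ x, (ϖ δ x * ψ x) ^ 2 ∂μ) (𝓝[>] 0) (𝓝 (∫ _x, (0 : ℝ) ∂μ)) := by
    refine tendsto_integral_filter_of_dominated_convergence _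
      (Eventually.of_forall fun δ => (mϖ δ).pow 2) ?_ hD.integrable_sq ?_
    · filter_upwards [self_mem_nhdsWithin] with δ hδ
      filter_upwards [bϖ δ hδ] with x hx
      rw [Real.norm_eq_abs, abs_pow]
      exact pow_le_pow_left₀ (abs_nonneg _) hx 2
    · filter_upwards [hne] with x hx
      have := ((tendsto_finsetSum Finset.univ fun a _ =>
        ((tt_tendsto (hx a)).sub_const (1 / ‖p a x - R a‖)).abs.const_mul |c a|).mul_const
          (ψ x)).pow 2
      simpa [hϖ] using this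
  have hU := ((memLp_finsetSum Finset.univ fun i _ => (hg i).abs).sub (hψ.const_mul M)).pos_part
  have z : ∫ x, max (∑ i, |g i x| - M * ψ x) 0 ^ 2 ∂μ ≤ 2 * Real.exp C ^ 4 * ∫ _x, (0 : ℝ) ∂μ := by
    refine ge_of_tendsto (lim.const_mul _) ?_
    filter_upwards [Ioc_mem_nhdsGT one_pos] with δ hδ
    have r1 := fun a => rd_smooth (p := p a) (R := R a) hδ.1
    have r2 := fun a => rd_smooth (p := p a) (R := R a) one_pos
    have B : ∀ t : α → ℝ, (∀ a, |t a| ≤ 2 + 6 * lam a) → |∑ a, c a / lam a * t a| ≤ C := by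
      intro t ht
      refine (Finset.abs_sum_le_sum_abs _ _).trans (le_trans (Finset.sum_le_sum fun a _ => ?_) C1)
      rw [abs_mul]
      exact mul_le_mul_of_nonneg_left (ht a) (abs_nonneg _)
    have G : ∀ a t, 0 < t → ∀ x i, |dd (b i) (rd (p a) (R a) t) x| ≤ 1 + 3 * lam a := by
      intro a t ht x i
      have a1 := rd_pos (p := p a) (R := R a) ht x
      have a2 : ‖p a (b i)‖ ^ 2 ≤ 3 * lam a := h2 a ▸ Finset.single_le_sum
        (f := fun i => ‖p a (b i)‖ ^ 2) (fun j _ => sq_nonneg _) (Finset.mem_univ i)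
      rw [dd_rd ht, abs_mul, abs_inv, abs_of_pos a1, ← div_eq_mul_inv, div_le_iff₀ a1]
      refine (abs_real_inner_le_norm _ _).trans ?_
      rw [mul_comm]
      exact mul_le_mul (by nlinarith [hl a]) (le_rd x) (norm_nonneg _) (by nlinarith [hl a])
    refine H ψ _ (fun x => ∑ a, c a / lam a * (rd (p a) (R a) δ x - rd (p a) (R a) 1 x)) (ϖ δ) g
      hψ hg (hD.of_le (mϖ δ) ((bϖ δ hδ.1).mono fun x hx => hx.trans (le_abs_self _))) S h0
      (ContDiff.sum fun a _ => contDiff_const.mul ((r1 a).sub (r2 a))) (fun x => B _ fun a => ?_)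
      (fun x i => ?_) (ϖ0 δ) fun x => ?_
    · have a1 : rd (p a) (R a) δ x ≤ ‖p a x - R a‖ + 1 :=
        Real.sqrt_le_iff.2 ⟨by positivity, by nlinarith [norm_nonneg (p a x - R a), hδ.1, hδ.2]⟩
      have a2 : rd (p a) (R a) 1 x ≤ ‖p a x - R a‖ + 1 :=
        Real.sqrt_le_iff.2 ⟨by positivity, by nlinarith [norm_nonneg (p a x - R a)]⟩
      rw [abs_le]
      constructor <;> linarith [le_rd (p := p a) (R := R a) (δ := δ) x,
        le_rd (p := p a) (R := R a) (δ := 1) x, hl a]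
    · rw [dd_sum _ r1 r2]
      refine B _ fun a => (abs_sub _ _).trans ?_
      linarith [G a δ hδ.1 x i, G a 1 one_pos x i]
    · have e1 : ∑ i, dd (b i) (dd (b i) fun x => ∑ a, c a / lam a *
          (rd (p a) (R a) δ x - rd (p a) (R a) 1 x)) x =
          ∑ a, 2 * (c a * (tt δ ‖p a x - R a‖ - tt 1 ‖p a x - R a‖)) := by
        simp only [dd_sum _ r1 r2, dd_sum _ (fun a => dd_smooth (r1 a) _)
          fun a => dd_smooth (r2 a) _]
        rw [Finset.sum_comm]
        refine Finset.sum_congr rfl fun a _ => ?_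
        rw [← Finset.mul_sum, Finset.sum_sub_distrib, lap_rd hδ.1 (h1 a) (h2 a),
          lap_rd one_pos (h1 a) (h2 a)]
        have := (hl a).ne'
        field_simp
      have e2 : e - ∑ a, c a / ‖p a x - R a‖ +
          1 / 2 * ∑ a, 2 * (c a * (tt δ ‖p a x - R a‖ - tt 1 ‖p a x - R a‖)) =
          e + ∑ a, (c a * (tt δ ‖p a x - R a‖ - 1 / ‖p a x - R a‖) - c a * tt 1 ‖p a x - R a‖) := by
        rw [← Finset.mul_sum, ← mul_assoc, show (1 : ℝ) / 2 * 2 = 1 by norm_num, one_mul,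
          sub_add, ← Finset.sum_sub_distrib, sub_eq_add_neg, ← Finset.sum_neg_distrib]
        congr 2
        ext a
        ring
      rw [e1, e2]
      refine (abs_add_le _ _).trans (le_trans ?_ (add_le_add C2 le_rfl))
      rw [add_assoc, ← Finset.sum_add_distrib]
      refine add_le_add le_rfl ((Finset.abs_sum_le_sum_abs _ _).trans
        (Finset.sum_le_sum fun a _ => (abs_sub _ _).trans ?_))
      have a1 := tt_bounds one_pos ‖p a x - R a‖
      have a2 : 3 / 2 / √(‖p a x - R a‖ ^ 2 + 1 ^ 2) ≤ 3 / 2 :=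
        div_le_self (by norm_num) (Real.le_sqrt_of_sq_le (by nlinarith))
      rw [abs_mul, abs_mul, abs_of_nonneg a1.1, add_comm]
      exact add_le_add (mul_le_mul_of_nonneg_left (a1.2.trans a2) (abs_nonneg _)) le_rfl
  rw [integral_zero, mul_zero] at z
  have z2 := (integral_eq_zero_iff_of_nonneg (fun x => sq_nonneg _) hU.integrable_sq).1
    (le_antisymm z (integral_nonneg fun x => sq_nonneg _))
  filter_upwards [z2] with x hx
  have := pow_eq_zero_iff (two_ne_zero) |>.1 hx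
  have h3 := le_max_left (∑ i, |g i x| - M * ψ x) 0
  simp only [Pi.sub_apply, Pi.abs_apply] at this
  linarith

end

end Vale.Agent.N363
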