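import Mathlib
import Vale.Agent.P363.R.Final

/-!
# P363: compactly supported kernels which behave like the heat kernel
-/

namespace Vale.Agent.N363

open MeasureTheory Filter Topology Set Metric
open Vale.Agent.P363.R.Sob
open scoped ContDiff ENNReal

noncomputable section

/-- Radial profiles `H`, `P = -H'`, `Q = P'`. -/
structure Ker (H P Q : ℝ → ℝ) (C : ℝ) : Prop where
  cH : ContDiff ℝ ∞ H
  cP : ContDiff ℝ ∞ P
  cQ : Continuous Q
  dH : ∀ s, HasDerivAt H (-P s) s
  dP : ∀ s, HasDerivAt P (Q s) s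
  zH : ∀ s, 1 < s → H s = 0
  zP : ∀ s, 1 < s → P s = 0
  zQ : ∀ s, 1 < s → Q s = 0
  H0 : ∀ s, 0 ≤ H s
  P0 : ∀ s, 0 ≤ P s
  HP : ∀ s, 0 ≤ s → H s ≤ P s
  pos : 0 < P 0
  C0 : 0 ≤ C
  QP : ∀ s, 0 ≤ s → |Q s| ≤ C * P (s / 4)
  PC : ∀ s, 0 ≤ s → P s ≤ C

theorem exists_ker : ∃ H P Q C, Ker H P Q C := by
  set P : ℝ → ℝ := fun s => (1 - s)⁻¹ ^ 2 * expNegInvGlue (1 - s) with hP
  have cP : ContDiff ℝ ∞ P := by
    have h : ContDiff ℝ ∞ fun x : ℝ => x⁻¹ ^ 2 * expNegInvGlue x := by
      have := expNegInvGlue.contDiff_polynomial_eval_inv_mul (n := ⊤) (Polynomial.X * Polynomial.X)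
      simp only [Polynomial.eval_mul, Polynomial.eval_X] at this
      simpa only [sq] using this
    exact h.comp (contDiff_const.sub contDiff_id)
  have zP : ∀ s, 1 < s → P s = 0 := fun s hs => by
    simp only [hP]
    rw [expNegInvGlue.zero_of_nonpos (by linarith), mul_zero]
  have pP : ∀ s, s < 1 → 0 < P s := fun s hs => by
    have h : 0 < 1 - s := by linarith
    exact mul_pos (by positivity) (expNegInvGlue.pos_of_pos h)
  have P0 : ∀ s, 0 ≤ P s := fun s => mul_nonneg (sq_nonneg _) (expNegInvGlue.nonneg _)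
  have cQ : Continuous (deriv P) := cP.continuous_deriv (by simp)
  have zQ : ∀ s, 1 < s → deriv P s = 0 := fun s hs => by
    have : P =ᶠ[𝓝 s] fun _ => 0 := by
      filter_upwards [lt_mem_nhds hs] with t ht using zP t ht
    rw [this.deriv_eq, deriv_const]
  obtain ⟨C1, hC1⟩ := (isCompact_Icc (a := (0 : ℝ)) (b := 1)).exists_bound_of_continuousOn
    (f := fun s => deriv P s / P (s / 4)) (cQ.continuousOn.div
      (cP.continuous.comp (continuous_id.div_const 4)).continuousOn
      fun s hs => (pP _ (by linarith [hs.2])).ne')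
  obtain ⟨C2, hC2⟩ := (isCompact_Icc (a := (0 : ℝ)) (b := 1)).exists_bound_of_continuousOn
    cP.continuous.continuousOn
  have h0 : 0 ≤ max (max C1 C2) 0 := le_max_right _ _
  refine ⟨fun s => expNegInvGlue (1 - s), P, deriv P, max (max C1 C2) 0,
    expNegInvGlue.contDiff.comp (contDiff_const.sub contDiff_id), cP, cQ, fun s => ?_,
    fun s => (cP.differentiable (by simp) s).hasDerivAt,
    fun s hs => expNegInvGlue.zero_of_nonpos (by linarith), zP, zQ,
    fun s => expNegInvGlue.nonneg _, P0, fun s hs => ?_, pP 0 one_pos, h0, fun s hs => ?_,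
    fun s hs => ?_⟩
  · have h1 : HasDerivAt expNegInvGlue ((1 - s)⁻¹ ^ 2 * expNegInvGlue (1 - s)) (1 - s) := by
      simpa using expNegInvGlue.hasDerivAt_polynomial_eval_inv_mul 1 (1 - s)
    have h2 := h1.comp s ((hasDerivAt_id s).const_sub 1)
    rw [mul_neg, mul_one] at h2
    exact h2
  · rcases le_or_gt 1 s with h | h
    · rw [expNegInvGlue.zero_of_nonpos (by linarith)]
      exact P0 s
    · refine le_mul_of_one_le_left (expNegInvGlue.nonneg _) (one_le_pow₀ ?_)
      exact (one_le_inv₀ (by linarith)).2 (by linarith)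
  · rcases lt_or_ge 1 s with h | h
    · rw [zQ s h, abs_zero]
      exact mul_nonneg h0 (P0 _)
    · have h1 := hC1 s ⟨hs, h⟩
      have h2 := pP (s / 4) (by linarith)
      rw [Real.norm_eq_abs, abs_div, abs_of_pos h2, div_le_iff₀ h2] at h1
      exact h1.trans (mul_le_mul_of_nonneg_right
        ((le_max_left _ _).trans (le_max_left _ _)) h2.le)
  · rcases lt_or_ge 1 s with h | h
    · rw [zP s h]
      exact h0
    · exact ((le_abs_self _).trans (hC2 s ⟨hs, h⟩)).trans
        ((le_max_right _ _).trans (le_max_left _ _))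

variable {E : Type*} [NormedAddCommGroup E] [NormedSpace ℝ E] [FiniteDimensional ℝ E]
  [MeasurableSpace E] [BorelSpace E] {μ : Measure E} [μ.IsAddHaarMeasure]
  {ι : Type*} [Fintype ι] [DecidableEq ι]

/-- Directions `b i` with coordinates `l i`. -/
structure Frame (b : ι → E) (l : ι → E →L[ℝ] ℝ) : Prop where
  dual : ∀ i j, l i (b j) = if i = j then 1 else 0
  norm_le : ∀ x, ‖x‖ ^ 2 ≤ ∑ i, l i x ^ 2
  dim : Module.finrank ℝ E = Fintype.card ι

/-- The scaled squared distance. -/
def qq (l : ι → E →L[ℝ] ℝ) (r : ℝ) (z w : E) : ℝ := (∑ i, l i (z - w) ^ 2) / r ^ 2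

variable {b : ι → E} {l : ι → E →L[ℝ] ℝ} {r : ℝ} {z w : E} {H P Q : ℝ → ℝ} {C : ℝ}

omit [FiniteDimensional ℝ E] [MeasurableSpace E] [BorelSpace E] [DecidableEq ι] in
theorem qq_nonneg : 0 ≤ qq l r z w := by
  unfold qq
  positivity

omit [FiniteDimensional ℝ E] [MeasurableSpace E] [BorelSpace E] [DecidableEq ι] in
theorem qq_contDiff : ContDiff ℝ ∞ (qq l r z) := by
  unfold qq
  exact (ContDiff.sum fun i _ =>
    ((l i).contDiff.comp (contDiff_const.sub contDiff_id)).pow 2).div_const _

omit [FiniteDimensional ℝ E] [MeasurableSpace E] [BorelSpace E] in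
theorem Frame.one_lt (F : Frame b l) (hr : 0 < r) (h : r < ‖z - w‖) : 1 < qq l r z w := by
  unfold qq
  rw [lt_div_iff₀ (by positivity)]
  nlinarith [F.norm_le (z - w)]

omit [FiniteDimensional ℝ E] [MeasurableSpace E] [BorelSpace E] [DecidableEq ι] in
theorem abs_l_le (hr : 0 < r) (h : qq l r z w ≤ 1) (i : ι) : |l i (z - w)| ≤ r := by
  unfold qq at h
  rw [div_le_one (by positivity)] at h
  exact abs_le_of_sq_le_sq' ((Finset.single_le_sum (f := fun i => l i (z - w) ^ 2)
    (fun j _ => sq_nonneg _) (Finset.mem_univ i)).trans h) hr.le |> abs_le.2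

omit [MeasurableSpace E] [BorelSpace E] in
theorem Frame.test (F : Frame b l) (hr : 0 < r) {Φ : ℝ → ℝ} (hΦ : ContDiff ℝ ∞ Φ)
    (hz : ∀ s, 1 < s → Φ s = 0) : Test fun w => Φ (qq l r z w) := by
  refine ⟨hΦ.comp qq_contDiff, HasCompactSupport.intro (isCompact_closedBall z r) fun w hw => ?_⟩
  rw [mem_closedBall', dist_eq_norm, not_le] at hw
  exact hz _ (F.one_lt hr hw)

omit [FiniteDimensional ℝ E] [MeasurableSpace E] [BorelSpace E] [Fintype ι] [DecidableEq ι] in
theorem hasFDerivAt_l (i : ι) : HasFDerivAt (fun w => l i (z - w)) (-l i) w := by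
  have := (l i).hasFDerivAt.comp w ((hasFDerivAt_id w).const_sub z)
  simpa [Function.comp_def] using this

omit [FiniteDimensional ℝ E] [MeasurableSpace E] [BorelSpace E] in
theorem Frame.exists_fderiv (F : Frame b l) {Φ : ℝ → ℝ} {a : ℝ}
    (h : HasDerivAt Φ a (qq l r z w)) : ∃ L : E →L[ℝ] ℝ,
      HasFDerivAt (fun w => Φ (qq l r z w)) L w ∧
        ∀ j, L (b j) = a * (-2 * l j (z - w) / r ^ 2) := by
  have h1 : HasFDerivAt (qq l r z)
      ((r ^ 2)⁻¹ • ∑ i, (2 * l i (z - w)) • (-l i)) w := by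
    have h2 := (HasFDerivAt.fun_sum (u := Finset.univ) fun i _ =>
      (hasFDerivAt_l (l := l) (z := z) (w := w) i).pow 2).mul_const (r ^ 2)⁻¹
    simp only [Nat.add_one_sub_one, pow_one, nsmul_eq_mul, Nat.cast_ofNat] at h2
    exact h2
  refine ⟨_, h.comp_hasFDerivAt w h1, fun j => ?_⟩
  simp only [ContinuousLinearMap.smul_apply, ContinuousLinearMap.sum_apply,
    ContinuousLinearMap.neg_apply, F.dual, smul_eq_mul, mul_neg, mul_ite, mul_one, mul_zero]
  rw [Finset.sum_eq_single j (fun i _ hi => by simp [hi]) (by simp)]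
  simp only [if_true]
  ring

omit [FiniteDimensional ℝ E] [MeasurableSpace E] [BorelSpace E] in
theorem Frame.d1 (F : Frame b l) (K : Ker H P Q C) (j : ι) (w : E) :
    fderiv ℝ (fun w => H (qq l r z w)) w (b j) =
      2 / r ^ 2 * (P (qq l r z w) * l j (z - w)) := by
  obtain ⟨L, h1, h2⟩ := F.exists_fderiv (K.dH (qq l r z w))
  rw [h1.fderiv, h2]
  ring

omit [FiniteDimensional ℝ E] [MeasurableSpace E] [BorelSpace E] in
theorem Frame.d2 (F : Frame b l) (K : Ker H P Q C) (i j : ι) (w : E) :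
    fderiv ℝ (fun w => P (qq l r z w) * l j (z - w)) w (b i) =
      -2 * Q (qq l r z w) * (l i (z - w) * l j (z - w)) / r ^ 2 -
        if i = j then P (qq l r z w) else 0 := by
  obtain ⟨L, h1, h2⟩ := F.exists_fderiv (K.dP (qq l r z w))
  rw [(h1.fun_mul (hasFDerivAt_l j)).fderiv]
  simp only [ContinuousLinearMap.add_apply, ContinuousLinearMap.smul_apply,
    ContinuousLinearMap.neg_apply, F.dual, h2, smul_eq_mul]
  by_cases h : i = j
  · rw [if_pos h, if_pos h.symm]
    ring
  · rw [if_neg h, if_neg (Ne.symm h)]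
    ring

theorem Frame.test2 (F : Frame b l) (K : Ker H P Q C) (hr : 0 < r) (j : ι) :
    Test fun w => P (qq l r z w) * l j (z - w) :=
  (F.test hr K.cP K.zP).mul ((l j).contDiff.comp (contDiff_const.sub contDiff_id))

/-- Weak derivatives commute. -/
theorem wd_comm {φ u u' ζ : E → ℝ} {v v' : E} (h : IsWD μ v φ u) (h' : IsWD μ v' φ u')
    (hζ : Test ζ) : ∫ x, fderiv ℝ ζ x v' * u x ∂μ = ∫ x, fderiv ℝ ζ x v * u' x ∂μ := by
  have e1 := h _ (hζ.fderiv v')
  have e2 := h' _ (hζ.fderiv v)
  have hd : Differentiable ℝ (fderiv ℝ ζ) :=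
    (hζ.1.fderiv_right (m := 1) (by norm_cast)).differentiable (by simp)
  have e : ∀ x, fderiv ℝ (fun x => fderiv ℝ ζ x v') x v =
      fderiv ℝ (fun x => fderiv ℝ ζ x v) x v' := by
    intro x
    rw [fderiv_clm_apply (hd x) (differentiableAt_const _),
      fderiv_clm_apply (hd x) (differentiableAt_const _)]
    have := (hζ.1.contDiffAt (x := x)).isSymmSndFDerivAt (by simp; norm_cast)
    simpa using this v v'
  simp only [e, smul_eq_mul] at e1 e2
  linarith

/-- The kernel. -/
def ker (l : ι → E →L[ℝ] ℝ) (P : ℝ → ℝ) (r : ℝ) (z w : E) : ℝ :=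
  (r ^ Fintype.card ι)⁻¹ * P (qq l r z w)

/-- The Laplacian of the second kernel, up to a factor. -/
def lap (l : ι → E →L[ℝ] ℝ) (P Q : ℝ → ℝ) (r : ℝ) (z w : E) : ℝ :=
  -2 * Q (qq l r z w) * qq l r z w - Fintype.card ι * P (qq l r z w)

omit [FiniteDimensional ℝ E] [MeasurableSpace E] [BorelSpace E] in
theorem Frame.lap_eq (F : Frame b l) (K : Ker H P Q C) (w : E) : lap l P Q r z w =
    ∑ j, fderiv ℝ (fun w => P (qq l r z w) * l j (z - w)) w (b j) := by
  simp only [F.d2 K, if_true, Finset.sum_sub_distrib, Finset.sum_const, Finset.card_univ,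
    nsmul_eq_mul, ← Finset.sum_div, ← Finset.mul_sum, ← sq]
  unfold lap
  rw [mul_div_assoc]
  rfl

omit [FiniteDimensional ℝ E] [MeasurableSpace E] [BorelSpace E] [DecidableEq ι] in
theorem ker_hasDerivAt (K : Ker H P Q C) (hr : 0 < r) :
    HasDerivAt (fun r => ker l P r z w)
      ((r ^ Fintype.card ι)⁻¹ * r⁻¹ * lap l P Q r z w) r := by
  have h1 : HasDerivAt (fun r => qq l r z w) (-2 * qq l r z w * r⁻¹) r := by
    have := ((hasDerivAt_pow 2 r).fun_inv (by positivity)).const_mul (∑ i, l i (z - w) ^ 2)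
    refine HasDerivAt.congr_deriv this ?_
    unfold qq
    field_simp
    ring
  have h2 : HasDerivAt (fun r : ℝ => (r ^ Fintype.card ι)⁻¹)
      (-(Fintype.card ι : ℝ) * (r ^ Fintype.card ι)⁻¹ * r⁻¹) r := by
    refine HasDerivAt.congr_deriv ((hasDerivAt_pow _ r).fun_inv (by positivity)) ?_
    rcases Nat.eq_zero_or_pos (Fintype.card ι) with h | h
    · simp [h]
    · obtain ⟨n, hn⟩ := Nat.exists_eq_succ_of_ne_zero h.ne'
      rw [hn, Nat.succ_sub_one, Nat.succ_eq_add_one]
      field_simp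
      ring
  refine HasDerivAt.congr_deriv (h2.fun_mul ((K.dP _).comp r h1)) ?_
  unfold lap
  ring

/-- The average of `g` around `z` at scale `r`. -/
def avg (μ : Measure E) (l : ι → E →L[ℝ] ℝ) (P : ℝ → ℝ) (g : E → ℝ) (z : E) (r : ℝ) : ℝ :=
  ∫ w, ker l P r z w * g w ∂μ

theorem Frame.test_ker (F : Frame b l) (K : Ker H P Q C) (hr : 0 < r) : Test (ker l P r z) :=
  Test.mul' contDiff_const (F.test hr K.cP K.zP)

theorem Frame.avg_hasDerivAt (F : Frame b l) (K : Ker H P Q C) {g : E → ℝ}
    (hg : LocallyIntegrable g μ) (hr : 0 < r) : HasDerivAt (avg μ l P g z)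
      ((r ^ Fintype.card ι)⁻¹ * r⁻¹ * ∫ w, lap l P Q r z w * g w ∂μ) r := by
  have hc : ∀ t, Continuous (lap l P Q t z) := fun t => by
    have := (qq_contDiff (l := l) (r := t) (z := z)).continuous
    have h1 := K.cQ.comp this
    have h2 := K.cP.continuous.comp this
    unfold lap
    exact ((continuous_const.mul h1).mul this).sub (continuous_const.mul h2)
  have hq : ContinuousOn (fun p : ℝ × E => qq l p.1 z p.2)
      (Icc (r / 2) (2 * r) ×ˢ closedBall z (2 * r)) := by
    unfold qq
    refine ContinuousOn.div (by fun_prop) (by fun_prop) fun p hp => ?_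
    have := hp.1.1
    exact pow_ne_zero _ (by linarith)
  obtain ⟨D, hD⟩ := ((isCompact_Icc (a := r / 2) (b := 2 * r)).prod
    (isCompact_closedBall z (2 * r))).exists_bound_of_continuousOn
    (f := fun p : ℝ × E => (p.1 ^ Fintype.card ι)⁻¹ * p.1⁻¹ * lap l P Q p.1 z p.2) (by
      have h0 : ∀ p ∈ Icc (r / 2) (2 * r) ×ˢ closedBall z (2 * r), p.1 ≠ 0 := fun p hp => by
        have := hp.1.1
        linarith
      unfold lap
      exact (((continuous_fst.pow _).continuousOn.inv₀ fun p hp => pow_ne_zero _ (h0 p hp)).mul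
        (continuous_fst.continuousOn.inv₀ h0)).mul
        (((continuousOn_const.mul (K.cQ.comp_continuousOn hq)).mul hq).sub
          (continuousOn_const.mul (K.cP.continuous.comp_continuousOn hq))))
  have h := (hasDerivAt_integral_of_dominated_loc_of_deriv_le (μ := μ) (x₀ := r)
    (F := fun t w => ker l P t z w * g w)
    (F' := fun t w => (t ^ Fintype.card ι)⁻¹ * t⁻¹ * lap l P Q t z w * g w)
    (bound := (closedBall z (2 * r)).indicator fun w => D * ‖g w‖)
    (Icc_mem_nhds (a := r / 2) (b := 2 * r) (by linarith) (by linarith))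
    (by
      filter_upwards [lt_mem_nhds hr] with t ht
      exact ((F.test_ker K ht).integrable_smul hg).aestronglyMeasurable)
    ((F.test_ker K hr).integrable_smul hg)
    ((continuous_const.mul (hc r)).aestronglyMeasurable.mul hg.aestronglyMeasurable)
    (ae_of_all _ fun w t ht => by
      by_cases hw : w ∈ closedBall z (2 * r)
      · rw [indicator_of_mem hw, norm_mul]
        exact mul_le_mul_of_nonneg_right (hD (t, w) ⟨ht, hw⟩) (norm_nonneg _)
      · rw [indicator_of_notMem hw]
        rw [mem_closedBall', dist_eq_norm, not_le] at hw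
        have := F.one_lt (r := t) (by linarith [ht.1]) (ht.2.trans_lt hw)
        simp [lap, K.zP _ this, K.zQ _ this])
    ((integrable_indicator_iff measurableSet_closedBall).2
      ((hg.integrableOn_isCompact (isCompact_closedBall _ _)).norm.const_mul D))
    (ae_of_all _ fun w t ht =>
      (ker_hasDerivAt K (by linarith [ht.1])).mul_const (g w))).2
  simp only [mul_assoc, integral_const_mul] at h ⊢
  exact h

omit [FiniteDimensional ℝ E] [MeasurableSpace E] [BorelSpace E] [DecidableEq ι] in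
theorem ker_nonneg (K : Ker H P Q C) (hr : 0 < r) : 0 ≤ ker l P r z w :=
  mul_nonneg (by positivity) (K.P0 _)

/-- The mass of the kernel. -/
def mass (μ : Measure E) (l : ι → E →L[ℝ] ℝ) (P : ℝ → ℝ) : ℝ :=
  ∫ y, P (∑ i, l i y ^ 2) ∂μ

theorem Frame.integral_ker' (F : Frame b l) (hr : 0 < r) :
    ∫ z, ker l P r z w ∂μ = mass μ l P := by
  have e : ∀ z, ker l P r z w = (r ^ Fintype.card ι)⁻¹ *
      (fun y => P (∑ i, l i (r⁻¹ • y) ^ 2)) (z - w) := by
    intro z
    simp only [ker, qq, map_smul, smul_eq_mul, mul_pow, ← Finset.mul_sum, inv_pow]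
    rw [div_eq_inv_mul]
  simp only [e]
  rw [integral_const_mul, integral_sub_right_eq_self (fun y => P (∑ i, l i (r⁻¹ • y) ^ 2)) w,
    Measure.integral_comp_inv_smul_of_nonneg μ (fun y => P (∑ i, l i y ^ 2)) hr.le, F.dim,
    smul_eq_mul, ← mul_assoc, inv_mul_cancel₀ (by positivity), one_mul]
  rfl

omit [FiniteDimensional ℝ E] [MeasurableSpace E] [BorelSpace E] [DecidableEq ι] in
theorem ker_symm : ker l P r z w = ker l P r w z := by
  unfold ker qq
  simp only [← neg_sub z w, map_neg, neg_sq]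

theorem Frame.integral_ker (F : Frame b l) (hr : 0 < r) :
    ∫ w, ker l P r z w ∂μ = mass μ l P := by
  simp only [ker_symm (z := z)]
  exact F.integral_ker' hr

theorem Frame.mass_pos (F : Frame b l) (K : Ker H P Q C) : 0 < mass μ l P := by
  rw [← F.integral_ker (z := 0) one_pos]
  have T := F.test_ker (z := 0) K one_pos
  refine T.continuous.integral_pos_of_hasCompactSupport_nonneg_nonzero T.2
    (fun w => ker_nonneg K one_pos) (x := 0) ?_
  simpa [ker, qq] using K.pos.ne'

theorem Frame.avg_tendsto (F : Frame b l) (K : Ker H P Q C) {g : E → ℝ}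
    (hg : LocallyIntegrable g μ) :
    ∀ᵐ z ∂μ, Tendsto (avg μ l P g z) (𝓝[>] 0) (𝓝 (mass μ l P * g z)) := by
  filter_upwards [(Besicovitch.vitaliFamily μ).ae_tendsto_average_norm_sub hg] with z h₀
  have hm := F.mass_pos (μ := μ) K
  have h := tendsto_integral_smul_of_tendsto_average_norm_sub
    (g := fun r w => (mass μ l P)⁻¹ * ker l P r z w)
    ((mass μ l P)⁻¹ * C * μ.real (closedBall 0 1)) (h₀.comp (Besicovitch.tendsto_filterAt μ z))
    (by filter_upwards with r using hg.integrableOn_isCompact (isCompact_closedBall _ _))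
    (by
      refine tendsto_const_nhds.congr' ?_
      filter_upwards [self_mem_nhdsWithin] with r hr
      rw [integral_const_mul, F.integral_ker hr, inv_mul_cancel₀ hm.ne'])
    (by
      filter_upwards [self_mem_nhdsWithin] with r hr w hw
      by_contra hw'
      rw [mem_closedBall', dist_eq_norm, not_le] at hw'
      exact hw (by simp [ker, K.zP _ (F.one_lt hr hw')]))
    (by
      filter_upwards [self_mem_nhdsWithin] with r hr w
      have hr' : 0 < r := hr
      have h1 : 0 < μ.real (closedBall (0 : E) 1) :=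
        ENNReal.toReal_pos (measure_closedBall_pos μ _ one_pos).ne' measure_closedBall_lt_top.ne
      rw [Measure.addHaar_real_closedBall' μ z hr'.le, F.dim,
        abs_of_nonneg (mul_nonneg (by positivity) (ker_nonneg K hr)),
        mul_div_mul_right _ _ h1.ne', mul_div_assoc]
      refine mul_le_mul_of_nonneg_left ?_ (by positivity)
      rw [div_eq_inv_mul]
      exact mul_le_mul_of_nonneg_left (K.PC _ qq_nonneg) (by positivity))
  have h2 := h.const_mul (mass μ l P)
  refine h2.congr fun r => ?_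
  simp only [smul_eq_mul, mul_assoc, integral_const_mul]
  rw [← mul_assoc, mul_inv_cancel₀ hm.ne', one_mul]
  rfl

end

end Vale.Agent.N363
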