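import Vale.Agent.N363.One
import Vale.Agent.P363W18.Fin

/-!
# P363: densities of one and two electrons are representable
-/

namespace Vale.Agent.N363

open MeasureTheory Filter Topology Set Metric
open Vale.Agent.P363 Vale.Agent.P363.R.Sob Vale.Agent.P363.Stmt Vale.Agent.P363.H382
open Vale.Agent.P363.R.KS (H1 qf)
open scoped ContDiff ENNReal RealInnerProductSpace

noncomputable section

theorem nuc_memV {M : ℕ} (Z : Fin M → ℕ) (R : Fin M → R3) : MemV (nuc Z R) := by
  have m : Measurable fun x : R3 => 1 / ‖x‖ := by fun_prop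
  have k0 : MemLp (indicator (ball (0 : R3) 1) fun x => 1 / ‖x‖) (3 / 2) volume := by
    rw [memLp_indicator_iff_restrict measurableSet_ball, ← integrable_norm_rpow_iff
      m.aestronglyMeasurable (by simp) (ENNReal.div_ne_top (by simp) (by simp))]
    refine integrableOn_ball_of_norm_le_rpow (C := 1) (α := 3 / 2) (by simp)
      (by norm_num) (ae_of_all _ fun x => le_of_eq ?_)
      (m.norm.pow_const _).aestronglyMeasurable
    rw [Real.norm_of_nonneg (by positivity), Real.norm_of_nonneg (by positivity), one_mul, one_div,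
      Real.inv_rpow (norm_nonneg _), Real.rpow_neg (norm_nonneg _), ENNReal.toReal_div]
    rfl
  have k1 : MemLp (fun x => ∑ j, -(Z j : ℝ) *
      indicator (ball (0 : R3) 1) (fun x => 1 / ‖x‖) (x - R j)) (3 / 2) volume :=
    memLp_finsetSum _ fun j _ =>
      (k0.comp_measurePreserving (measurePreserving_sub_right volume (R j))).const_mul _
  have mU : Measurable (nuc Z R) := by
    unfold nuc
    fun_prop
  have k2 : MemLp (fun x => nuc Z R x - ∑ j, -(Z j : ℝ) *
      indicator (ball (0 : R3) 1) (fun x => 1 / ‖x‖) (x - R j)) ⊤ volume := by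
    refine memLp_top_of_bound (mU.aestronglyMeasurable.sub k1.1) (∑ j, (Z j : ℝ))
      (ae_of_all _ fun x => ?_)
    rw [nuc, ← Finset.sum_sub_distrib]
    refine norm_sum_le_of_le _ fun j _ => ?_
    by_cases h : x - R j ∈ ball (0 : R3) 1
    · rw [indicator_of_mem h, neg_mul, mul_one_div, sub_self, norm_zero]
      positivity
    · rw [indicator_of_notMem h, mul_zero, sub_zero, norm_neg, Real.norm_of_nonneg (by positivity)]
      exact div_le_self (by positivity) (by simpa using h)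
  exact ⟨_, _, k1, k2, funext fun r => (add_sub_cancel _ _).symm⟩

theorem low_all {v : R3 → ℝ} (hv : MemV v) (h : ∀ f k, H1 f k → 0 ≤ qf v 0 f k f k) {n : ℕ}
    (Ψ : ElectronState (n + 1)) : 0 ≤ energy (sumPotential v) Ψ := by
  obtain ⟨κ, _, b, hb⟩ := H700.exists_onb n
  exact (H700.nf_en Ψ hb hv).nonneg fun j => h _ _ (H700.nf_H1 Ψ hb j)

theorem int_two (A B : R3 → ℝ) (i : Fin 2) :
    ∫ x : Conf 2, A (x i) * B (x (sw i)) = (∫ r, A r) * ∫ r, B r := by
  have h := fun A B : R3 → ℝ => integral_fintype_prod_volume_eq_prod fun i : Fin 2 => ![A, B] i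
  simp only [Fin.prod_univ_two, Matrix.cons_val_zero, Matrix.cons_val_one] at h
  fin_cases i
  · exact h A B
  · rw [mul_comm, ← h B A]
    exact integral_congr_ae (ae_of_all _ fun x => mul_comm _ _)

theorem hh_tens {s : R3 → ℝ} {g : Fin 3 → R3 → ℝ} (hs : H1 s g) (c : ℝ) :
    HH volume bb (fun x => c * (s (x 0) * s (x 1)))
      fun i x => c * (g i.2 (x i.1) * s (x (sw i.1))) := by
  have m : ∀ _ : Fin 2, MemLp (fun r => (s r : ℂ)) 2 volume := fun _ => hs.mem.ofReal
  have m1 := H574.memLp_tens m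
  have m2 : ∀ i : Fin 2 × Fin 3, MemLp (H574.tens (Function.update (fun (_ : Fin 2) r => (s r : ℂ))
      i.1 fun r => (g i.2 r : ℂ))) 2 volume := fun i => H574.memLp_tens fun j => by
    by_cases h : j = i.1
    · rw [h, Function.update_self]
      exact (hs.gmem _).ofReal
    · rw [Function.update_of_ne h]
      exact m j
  have e1 : (fun x : Conf 2 => (H574.tens (fun (_ : Fin 2) r => (s r : ℂ)) x).re) =
      fun x => s (x 0) * s (x 1) := by
    ext x
    simp [H574.tens]
  have e2 : ∀ i : Fin 2 × Fin 3, (fun x : Conf 2 => (H574.tens (Function.update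
      (fun (_ : Fin 2) r => (s r : ℂ)) i.1 fun r => (g i.2 r : ℂ)) x).re) =
      fun x => g i.2 (x i.1) * s (x (sw i.1)) := fun ⟨i, k⟩ => by
    ext x
    fin_cases i <;> simp [H574.tens, mul_comm]
  refine ⟨MemLp.const_mul (e1 ▸ m1.re) c, fun i => MemLp.const_mul (e2 i ▸ (m2 i).re) c,
    fun i => IsWD.const_smul ?_ c⟩
  rw [← e1, ← e2]
  exact H700.isWD_re (H574.isWD_tens m (hs.gmem _).ofReal ((hs.wd i.2).clm_comp Complex.ofRealCLM
    (fun _ hφ => hφ.integrable_smul hs.locInt) fun _ hφ => hφ.integrable_smul (hs.glocInt _)))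
    (m1.locallyIntegrable one_le_two) ((m2 i).locallyIntegrable one_le_two)

theorem two_forms {M : ℕ} {Z : Fin M → ℕ} {R : Fin M → R3} {Ψ : ElectronState 2}
    (hΨ : IsGroundState (coulombPotential Z R) Ψ) : (∀ᵐ r, 0 < density Ψ r) ∧
    ∃ v, MemV v ∧ MemLp (v - nuc Z R) ⊤ volume ∧ ∃ Φ : ElectronState 2,
      IsGroundState (sumPotential v) Φ ∧ ∀ᵐ r, density Φ r = density Ψ r := by
  obtain ⟨K, ρ, τ, P, h, hd⟩ := ground_marg hΨ
  have h1 : ∫ r, ρ r = 1 := by
    have := integral_density Ψ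
    rw [integral_congr_ae hd, integral_const_mul, hΨ.1] at this
    norm_num at this
    linarith
  obtain ⟨v, s, g, hv, hw, hs, e, pos, low, z⟩ := h.one (nuc_memV Z R) (by simp [h1])
  have c : √(1 / 2) ^ 2 = (1 / 2 : ℝ) := Real.sq_sqrt (by norm_num)
  have s1 : ∫ r, s r ^ 2 = 1 := by simp only [e, h1]
  have dΦ : ∀ r, density (mk (hh_tens hs √(1 / 2))) r = 2 * s r ^ 2 := fun r => by
    have : ∫ y : Conf 1, s (y 0) ^ 2 = 1 := by
      rw [← s1]
      simpa using integral_fintype_prod_volume_eq_prod fun (_ : Fin 1) r => s r ^ 2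
    rw [density_mk]
    change 2 * ((∫ y : Conf 1, (_ * (s r * s (y 0))) ^ 2) +
      ∫ y : Conf 1, (_ * (s (y 0) * s r)) ^ 2) = _
    simp only [mul_pow, c, integral_const_mul, integral_mul_const, this]
    ring
  have en : energy (sumPotential v) (mk (hh_tens hs √(1 / 2))) = 0 := by
    have k1 := energy_mk (hh_tens hs √(1 / 2)) (w := fun _ => 0) fun _ => rfl
    have k2 : ∀ i : Fin 2 × Fin 3, ∫ x : Conf 2, g i.2 (x i.1) ^ 2 * s (x (sw i.1)) ^ 2 =
        ∫ r, g i.2 r ^ 2 := fun i => by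
      rw [int_two (fun r => g i.2 r ^ 2) fun r => s r ^ 2, s1, mul_one]
    have k3 : energy (fun _ => 0) (mk (hh_tens hs √(1 / 2))) =
        H574.kinE (mk (hh_tens hs √(1 / 2))) := by simp [energy, H574.kinE, intR]
    simp only [mul_pow, c, integral_const_mul, k2, zero_mul, integral_zero] at k1
    rw [H700.qf_self, H700.H1_int_grad hs] at z
    rw [H700.energy_sumPotential hv, ← k3, k1, Fintype.sum_prod_type, Fin.sum_univ_two]
    simp only [dΦ, mul_left_comm _ (2 : ℝ), integral_const_mul, ← Finset.mul_sum]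
    linarith
  refine ⟨?_, v, hv, hw, _, ⟨?_, fun Φ _ => en ▸ low_all hv low Φ⟩, ?_⟩
  · filter_upwards [pos, hd] with r a b
    linarith
  · have := int_two (fun r => s r ^ 2) (fun r => s r ^ 2) 0
    rw [s1, mul_one] at this
    rw [normSq_mk]
    simp only [mul_pow, c, integral_const_mul]
    erw [this]
    norm_num
  · filter_upwards [hd] with r a
    rw [dΦ, a, e]

open P363L P363W18 P370S

theorem rep_pure {n : ℕ} {v ρ : R3 → ℝ} (hv : MemV v) {φ : HN (n + 1)}
    (h : φ ∈ groundSpace (P363L.ham (sumPotential v))) (h1 : ‖φ‖ = 1)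
    (e : ∀ᵐ r, ρ r = P363L.dens φ r) : P363L.Representable (n + 1) ρ := by
  refine ⟨v, hv, _, ⟨(P363L.pure n φ h1).1, fun f => ?_⟩, _, (P363L.pure n φ h1).2, e⟩
  have := (P363L.ham (sumPotential v)).graph.smul_mem (inner ℂ φ f) h
  rwa [Prod.smul_mk, smul_comm] at this

theorem two {M : ℕ} (Z : Fin M → ℕ) (R : Fin M → R3) (ψ : HN (1 + 1))
    (h : ψ ∈ groundSpace (P363L.ham (coulombPotential Z R))) (h1 : ‖ψ‖ = 1) :
    (∀ᵐ r, 0 < P363L.dens ψ r) ∧ ∃ v, MemV v ∧ MemLp (v - nuc Z R) ⊤ volume ∧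
      ∃ φ : HN (1 + 1), φ ∈ groundSpace (P363L.ham (sumPotential v)) ∧ ‖φ‖ = 1 ∧
        ∀ᵐ r, P363L.dens φ r = P363L.dens ψ r := by
  haveI := complete 2
  obtain ⟨V, hV⟩ := (hd_coul (N := 2) Z R).rep
  obtain ⟨x, rfl, -⟩ := (kit_ground hV.kit hV.ne).1 h
  obtain ⟨p, v, hv, hw, Φ, hΦ, hd⟩ := two_forms ((rep_ground hV x).2 ⟨h, h1⟩)
  obtain ⟨V', hV'⟩ := rep_sum (n := 1) hv
  have h3 : IsGroundState (sumPotential v) (ofFS (toFS Φ)) := by
    refine ⟨(normSq_congr _ Φ (amb_none_ae Φ)).trans hΦ.1, fun Φ' h' => ?_⟩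
    rw [energy_congr _ _ Φ (amb_none_ae Φ)]
    exact hΦ.2 Φ' h'
  obtain ⟨h4, h5⟩ := (rep_ground hV' _).1 h3
  refine ⟨p, v, hv, hw, _, h4, h5, ?_⟩
  filter_upwards [hd, dens_toFS (n := 1) Φ] with r a b
  exact b.trans a

theorem small (n : ℕ) (hn : n ≤ 1) {M : ℕ} (Z : Fin M → ℕ) (R : Fin M → R3) (ψ : HN (n + 1))
    (h : ψ ∈ groundSpace (P363L.ham (coulombPotential Z R))) (h1 : ‖ψ‖ = 1) :
    P363L.Representable (n + 1) (P363L.dens ψ) := by
  interval_cases n
  · have e : (coulombPotential Z R : Conf (0 + 1) → ℝ) = sumPotential (nuc Z R) := by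
      ext x
      simp [coulombPotential, sumPotential, nuc]
    exact rep_pure (nuc_memV Z R) (e ▸ h) h1 (ae_of_all _ fun _ => rfl)
  · obtain ⟨-, v, hv, -, φ, h2, h3, h4⟩ := two Z R ψ h h1
    exact rep_pure hv h2 h3 (h4.mono fun _ a => a.symm)

end

end Vale.Agent.N363
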