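import Vale.Agent.N363.Two

/-!
# P363: the one-body marginals of a two-electron ground state
-/

namespace Vale.Agent.N363

open MeasureTheory Filter Topology Set Metric
open Vale.Agent.P363 Vale.Agent.P363.R.Sob Vale.Agent.P363.Stmt Vale.Agent.P363.H382
open scoped ContDiff ENNReal RealInnerProductSpace

noncomputable section

/-- The marginal. -/
def sl (F : Conf 2 → ℝ) (r : R3) : ℝ := ∫ y : Conf 1, F (Fin.cons r y)

/-- The localised energy density. -/
def st (a : R3 → ℝ) (b : Fin 3 → R3 → ℝ) (ρ : R3 → ℝ) (τ : Fin 3 → R3 → ℝ) (P : R3 → ℝ)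
    (r : R3) : ℝ :=
  1 / 2 * ∑ k, (b k r ^ 2 * ρ r + a r * b k r * τ k r) + a r ^ 2 * P r

/-- What is needed about the marginals. -/
structure Marg (U : R3 → ℝ) (C : ℝ) (ρ : R3 → ℝ) (τ : Fin 3 → R3 → ℝ) (P : R3 → ℝ) : Prop where
  iρ : Integrable ρ
  iτ : ∀ k, Integrable (τ k)
  iP : Integrable P
  nn : ∀ r, 0 ≤ ρ r
  wd : ∀ k, IsWD volume (e3 k) ρ (τ k)
  bτ : ∀ k, ∀ᵐ r, |τ k r| ≤ C * ρ r
  bP : ∀ᵐ r, |P r - U r * ρ r| ≤ C * ρ r
  zero : ∫ r, P r = 0
  star : ∀ a : R3 → ℝ, ContDiff ℝ ∞ a → ∀ c, (∀ r, |a r| ≤ c) →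
    (∀ k r, |dd (e3 k) a r| ≤ c) → 0 ≤ ∫ r, st a (fun k => dd (e3 k) a) ρ τ P r

theorem int_bdd {α : Type*} [MeasurableSpace α] {μ : Measure α} {a b F : α → ℝ} {c : ℝ}
    (hF : Integrable F μ) (ha : AEStronglyMeasurable a μ) (hb : AEStronglyMeasurable b μ)
    (a0 : ∀ r, |a r| ≤ c) (b0 : ∀ r, |b r| ≤ c) : Integrable (fun r => a r * b r * F r) μ :=
  hF.bdd_mul (c := c * c) (ha.mul hb) (ae_of_all _ fun r => by
    rw [norm_mul]
    exact mul_le_mul (a0 r) (b0 r) (norm_nonneg _) ((abs_nonneg _).trans (a0 r)))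

variable {U : R3 → ℝ} {C c : ℝ} {a ρ P : R3 → ℝ} {b τ : Fin 3 → R3 → ℝ}

theorem Marg.int_st (h : Marg U C ρ τ P) (ha : AEStronglyMeasurable a volume)
    (hb : ∀ k, AEStronglyMeasurable (b k) volume) (a0 : ∀ r, |a r| ≤ c)
    (b0 : ∀ k r, |b k r| ≤ c) : Integrable (st a b ρ τ P) := by
  unfold st
  simp only [sq]
  exact ((integrable_finsetSum _ fun k _ => (int_bdd h.iρ (hb k) (hb k) (b0 k) (b0 k)).add
    (int_bdd (h.iτ k) ha (hb k) a0 (b0 k))).const_mul _).add (int_bdd h.iP ha ha a0 a0)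

theorem Marg.sum {J : Type*} [Fintype J] {ρ P : J → R3 → ℝ} {τ : J → Fin 3 → R3 → ℝ}
    (h : ∀ j, Marg U C (ρ j) (τ j) (P j)) :
    Marg U C (fun r => ∑ j, ρ j r) (fun k r => ∑ j, τ j k r) fun r => ∑ j, P j r := by
  refine ⟨integrable_finsetSum _ fun j _ => (h j).iρ,
    fun k => integrable_finsetSum _ fun j _ => (h j).iτ k,
    integrable_finsetSum _ fun j _ => (h j).iP,
    fun r => Finset.sum_nonneg fun j _ => (h j).nn r,
    fun k => H943.Fam.isWD_fsum _ (fun j => (h j).iρ.locallyIntegrable)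
      (fun j => ((h j).iτ k).locallyIntegrable) fun j => (h j).wd k, fun k => ?_, ?_, ?_,
    fun a ha c a0 a1 => ?_⟩
  · filter_upwards [ae_all_iff.2 fun j => (h j).bτ k] with r hr
    rw [Finset.mul_sum]
    exact (Finset.abs_sum_le_sum_abs _ _).trans (Finset.sum_le_sum fun j _ => hr j)
  · filter_upwards [ae_all_iff.2 fun j => (h j).bP] with r hr
    rw [Finset.mul_sum, Finset.mul_sum, ← Finset.sum_sub_distrib]
    exact (Finset.abs_sum_le_sum_abs _ _).trans (Finset.sum_le_sum fun j _ => hr j)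
  · rw [integral_finsetSum _ fun j _ => (h j).iP]
    exact Finset.sum_eq_zero fun j _ => (h j).zero
  · refine (Finset.sum_nonneg (s := Finset.univ) fun j _ => (h j).star a ha c a0 a1).trans
      (le_of_eq ?_)
    rw [← integral_finsetSum _ fun j _ => (h j).int_st ha.continuous.aestronglyMeasurable
      (fun k => (dd_smooth ha _).continuous.aestronglyMeasurable) a0 a1]
    congr 1
    ext r
    simp only [st, Finset.sum_add_distrib, ← Finset.mul_sum]
    rw [Finset.sum_comm, Finset.sum_comm (f := fun j k => a r * dd (e3 k) a r * τ j k r)]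
    simp only [Finset.mul_sum]

theorem dd_fst {a : R3 → ℝ} (ha : ContDiff ℝ ∞ a) (i : Fin 2 × Fin 3) (x : Conf 2) :
    dd (bb i) (fun x : Conf 2 => a (x 0)) x = if i.1 = 0 then dd (e3 i.2) a (x 0) else 0 := by
  have := ((ha.differentiable (by simp) (pI 0 x)).hasFDerivAt.comp x (pI 0).hasFDerivAt).fderiv
  unfold dd
  erw [this]
  rw [ContinuousLinearMap.comp_apply, pI_bb]
  by_cases h : i.1 = 0
  · rw [if_pos h, if_pos h.symm]
    rfl
  · rw [if_neg h, if_neg (Ne.symm h), map_zero]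

theorem HH.fst {f : Conf 2 → ℝ} {g : Fin 2 × Fin 3 → Conf 2 → ℝ} (h : HH volume bb f g)
    (ha : ContDiff ℝ ∞ a) (a0 : ∀ r, |a r| ≤ c) (a1 : ∀ k r, |dd (e3 k) a r| ≤ c) :
    HH volume bb (fun x => a (x 0) * f x) fun i x =>
      (if i.1 = 0 then dd (e3 i.2) a (x 0) else 0) * f x + a (x 0) * g i x := by
  have := h.mul (k := fun x => a (x 0)) (ha.comp (pI 0).contDiff) (fun x => a0 _) fun i x => by
    rw [dd_fst ha]
    split_ifs
    exacts [a1 _ _, by simpa using (abs_nonneg _).trans (a0 0)]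
  simpa only [dd_fst ha] using this

theorem sl_int {F : Conf 2 → ℝ} (hF : Integrable F) {a b : R3 → ℝ} (ha : Continuous a)
    (hb : Continuous b) (a0 : ∀ r, |a r| ≤ c) (b0 : ∀ r, |b r| ≤ c) :
    Integrable (fun x : Conf 2 => a (x 0) * b (x 0) * F x) ∧
      ∫ x : Conf 2, a (x 0) * b (x 0) * F x = ∫ r, a r * b r * sl F r := by
  have := int_bdd hF (ha.comp (continuous_apply 0)).aestronglyMeasurable
    (hb.comp (continuous_apply 0)).aestronglyMeasurable (fun x => a0 _) fun x => b0 _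
  exact ⟨this, int_unc_mul (fun r => a r * b r) this⟩

theorem ae_sl {p : Conf 2 → Prop} (h : ∀ᵐ x, p x) : ∀ᵐ r : R3, ∀ᵐ y : Conf 1, p (Fin.cons r y) :=
  Measure.ae_ae_of_ae_prod (consE_mp.quasiMeasurePreserving.ae h)

theorem exists_marg {M : ℕ} (Z : Fin M → ℕ) (R : Fin M → R3) (e : ℝ)
    (hlow : ∀ f g, HH volume bb f g →
      0 ≤ ∫ x, ed (fun x => e - coulombPotential Z R x) f g x) : ∃ K : ℝ, ∀ f g,
    HH volume bb f g → ∫ x, ed (fun x => e - coulombPotential Z R x) f g x = 0 →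
    Marg (nuc Z R) K (sl fun x => f x ^ 2) (fun k => sl fun x => 2 * (f x * g (0, k) x))
      (sl (ed (fun x => e - coulombPotential Z R x) f g)) := by
  obtain ⟨C, hC, H⟩ := coul_grad Z R e hlow
  refine ⟨2 * C + (3 * C ^ 2 + |e| + (∑ j, (Z j : ℝ) + 1) * (3 * C ^ 2 + 1)),
    fun f g h h0 => ?_⟩
  have hb : ∀ᵐ x, ∀ i, |g i x| ≤ C * |f x| := by
    filter_upwards [H f g h h0] with x hx i
    exact (Finset.single_le_sum (f := fun i => |g i x|) (fun _ _ => abs_nonneg _)
      (Finset.mem_univ i)).trans hx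
  have i1 := h.mem.integrable_sq
  have i2 : ∀ k, Integrable fun x => 2 * (f x * g (0, k) x) := fun k =>
    (h.mem.integrable_mul (h.gmem _)).const_mul 2
  have i3 := h.int_ed (coul_mem Z R e h)
  have nn : ∀ r, 0 ≤ sl (fun x => f x ^ 2) r := fun r => integral_nonneg fun y => sq_nonneg _
  refine ⟨(H943.integrable_slice i1).1, fun k => (H943.integrable_slice (i2 k)).1,
    (H943.integrable_slice i3).1, nn, fun k φ hφ => ?_, fun k => ?_, ?_,
    (H943.integrable_slice i3).2.trans h0, fun a ha c a0 a1 => ?_⟩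
  · obtain ⟨c, hc⟩ := hφ.2.exists_bound_of_continuous hφ.continuous
    choose d hd using fun k : Fin 3 => (hφ.fderiv (e3 k)).2.exists_bound_of_continuous
      (hφ.fderiv (e3 k)).continuous
    have p : ∀ k, 0 ≤ d k := fun k => (norm_nonneg _).trans (hd k 0)
    have q : 0 ≤ c := (norm_nonneg _).trans (hc 0)
    have S : 0 ≤ ∑ k, d k := Finset.sum_nonneg fun k _ => p k
    have a0 : ∀ r, |φ r| ≤ c + ∑ k, d k + 1 := fun r => (hc r).trans (by linarith)
    have a1 : ∀ k r, |dd (e3 k) φ r| ≤ c + ∑ k, d k + 1 := fun k r => (hd k r).trans (by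
      linarith [Finset.single_le_sum (fun k _ => p k) (Finset.mem_univ k)])
    have o : ∀ r : R3, |(1 : ℝ)| ≤ c + ∑ k, d k + 1 := fun r => by
      rw [abs_one]
      linarith
    have h' := h.fst hφ.1 a0 a1
    have := IsWD.integral_bilin (ContinuousLinearMap.mul ℝ ℝ) h'.mem (h'.gmem (0, k)) h.mem
      (h.gmem (0, k)) (h'.wd _) (h.wd _)
    obtain ⟨j1, e1⟩ := sl_int i1 (dd_smooth hφ.1 (e3 k)).continuous continuous_const (a1 k) o
    obtain ⟨j2, e2⟩ := sl_int (i2 k) hφ.continuous continuous_const a0 o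
    simp only [mul_one, dd] at j1 e1 j2 e2
    simp only [smul_eq_mul]
    rw [← e1, ← e2, eq_neg_iff_add_eq_zero, ← integral_add j1 j2]
    erw [eq_neg_iff_add_eq_zero, ← integral_add ((h'.gmem (0, k)).integrable_mul h.mem)
      (h'.mem.integrable_mul (h.gmem (0, k)))] at this
    rw [← this]
    congr 1
    ext x
    simp [dd]
    ring
  · filter_upwards [ae_sl hb, H943.ae_integrable_slice i1] with r hr hi
    have := nn r
    rw [sl, ← Real.norm_eq_abs]
    refine le_trans (norm_integral_le_of_norm_le (hi.const_mul (2 * C)) ?_) ?_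
    · filter_upwards [hr] with y hy
      rw [norm_mul, norm_mul, ← sq_abs, Real.norm_two, Real.norm_eq_abs, Real.norm_eq_abs]
      nlinarith [mul_le_mul_of_nonneg_left (hy (0, k)) (abs_nonneg (f (Fin.cons r y)))]
    · rw [integral_const_mul]
      exact mul_le_mul_of_nonneg_right (le_add_of_nonneg_right (by positivity)) this
  · filter_upwards [ae_sl hb, H943.ae_integrable_slice i1, H943.ae_integrable_slice i3,
      ae_memLp_rest h.mem, ae_all_iff.2 fun k => ae_memLp_rest (h.gmem (1, k)),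
      ae_all_iff.2 fun k => ae_slice_rest (i := 0) h.mem (h.gmem (1, k)) (h.wd (1, k))]
      with r hr j1 j3 m1 m2 w
    have := nn r
    have sq' : ∀ᵐ y : Conf 1, ∀ i, g i (Fin.cons r y) ^ 2 ≤ C ^ 2 * f (Fin.cons r y) ^ 2 := by
      filter_upwards [hr] with y hy i
      rw [← mul_pow, sq_le_sq, abs_mul, abs_of_nonneg hC]
      exact hy i
    have cl : ∀ z : R3, Integrable (fun y : Conf 1 => f (Fin.cons r y) ^ 2 / ‖y 0 - z‖) ∧
        ∫ y : Conf 1, f (Fin.cons r y) ^ 2 / ‖y 0 - z‖ ≤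
          (3 * C ^ 2 + 1) * sl (fun x => f x ^ 2) r := fun z => by
      obtain ⟨l1, l2⟩ := coulomb_le (ContinuousLinearMap.proj (R := ℝ) (φ := fun _ : Fin 1 => R3) 0)
        z (dir 0) (fun k => rfl) m1 m2 w
      simp only [Real.norm_eq_abs, sq_abs, ContinuousLinearMap.proj_apply] at l1 l2
      refine ⟨l1, (l2 1 one_pos).trans ?_⟩
      have : ∀ k, ∫ y : Conf 1, g (1, k) (Fin.cons r y) ^ 2 ≤ C ^ 2 * sl (fun x => f x ^ 2) r :=
        fun k => by
          rw [sl, ← integral_const_mul]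
          exact integral_mono_ae (m2 k).integrable_sq (j1.const_mul _) (sq'.mono fun y hy => hy _)
      rw [Fin.sum_univ_three]
      unfold sl at this ⊢
      linarith [this 0, this 1, this 2]
    have b1 := j1.const_mul (3 * C ^ 2 + |e|)
    have b2 := integrable_finsetSum Finset.univ fun j _ => (cl (R j)).1.const_mul (Z j : ℝ)
    rw [sl, sl, ← integral_const_mul, ← integral_sub j3 (j1.const_mul _), ← Real.norm_eq_abs]
    refine le_trans (norm_integral_le_of_norm_le ((b1.fun_add b2).fun_add (cl r).1) ?_) ?_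
    · filter_upwards [sq'] with y hy
      have t1 : ∑ i, g i (Fin.cons r y) ^ 2 ≤ 6 * (C ^ 2 * f (Fin.cons r y) ^ 2) := by
        simpa using Finset.sum_le_card_nsmul Finset.univ _ _ fun i _ => hy i
      have t0 : 0 ≤ ∑ i, g i (Fin.cons r y) ^ 2 := by positivity
      have t2 : nuc Z R (y 0) * f (Fin.cons r y) ^ 2 =
          -∑ j, (Z j : ℝ) * (f (Fin.cons r y) ^ 2 / ‖y 0 - R j‖) := by
        rw [nuc, Finset.sum_mul, ← Finset.sum_neg_distrib]
        exact Finset.sum_congr rfl fun j _ => by ring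
      have t3 : 0 ≤ ∑ j, (Z j : ℝ) * (f (Fin.cons r y) ^ 2 / ‖y 0 - R j‖) := by positivity
      have t4 : 0 ≤ f (Fin.cons r y) ^ 2 / ‖y 0 - r‖ := by positivity
      have t5 := mul_le_mul_of_nonneg_right (le_abs_self e) (sq_nonneg (f (Fin.cons r y)))
      have t6 := mul_le_mul_of_nonneg_right (neg_abs_le e) (sq_nonneg (f (Fin.cons r y)))
      have t7 : 0 ≤ C ^ 2 * f (Fin.cons r y) ^ 2 := by positivity
      have t8 : ed (fun x => e - coulombPotential Z R x) f g (Fin.cons r y) -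
          nuc Z R r * f (Fin.cons r y) ^ 2 = 1 / 2 * ∑ i, g i (Fin.cons r y) ^ 2 -
          e * f (Fin.cons r y) ^ 2 + nuc Z R (y 0) * f (Fin.cons r y) ^ 2 +
          f (Fin.cons r y) ^ 2 / ‖y 0 - r‖ := by
        rw [ed, coul_eq, norm_sub_rev (y 0)]
        change _ - (e - (nuc Z R r + nuc Z R (y 0) + 1 / ‖r - y 0‖)) * _ * _ - _ = _
        ring
      rw [t8, t2, Real.norm_eq_abs, abs_le]
      constructor <;> nlinarith
    · rw [integral_add (b1.fun_add b2) (cl r).1, integral_add b1 b2,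
        integral_finsetSum _ fun j _ => (cl (R j)).1.const_mul (Z j : ℝ)]
      simp only [integral_const_mul]
      have := Finset.sum_le_sum (s := Finset.univ) fun j _ =>
        mul_le_mul_of_nonneg_left (cl (R j)).2 (Nat.cast_nonneg (Z j))
      rw [← Finset.sum_mul] at this
      have := (cl r).2
      unfold sl at *
      nlinarith
  · have ca := ha.continuous
    have cd := fun k => (dd_smooth ha (e3 k)).continuous
    have k1 := fun k => sl_int i1 (cd k) (cd k) (a1 k) (a1 k)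
    have k2 := fun k => sl_int (i2 k) ca (cd k) a0 (a1 k)
    have k3 := sl_int i3 ca ca a0 a0
    have l1 := fun k => int_bdd (H943.integrable_slice i1).1 (cd k).aestronglyMeasurable
      (cd k).aestronglyMeasurable (a1 k) (a1 k)
    have l2 := fun k => int_bdd (H943.integrable_slice (i2 k)).1 ca.aestronglyMeasurable
      (cd k).aestronglyMeasurable a0 (a1 k)
    have l3 := int_bdd (H943.integrable_slice i3).1 ca.aestronglyMeasurable
      ca.aestronglyMeasurable a0 a0
    refine (hlow _ _ (h.fst ha a0 a1)).trans (le_of_eq ?_)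
    simp only [st, sq]
    simp only [← sq (f _)]
    erw [integral_add ((integrable_finsetSum _ fun k _ => (l1 k).fun_add (l2 k)).const_mul _) l3,
      integral_const_mul, integral_finsetSum _ fun k _ => (l1 k).fun_add (l2 k), ← k3.2]
    rw [Finset.sum_congr rfl fun k _ => (integral_add (l1 k) (l2 k)).trans
      (congrArg₂ _ (k1 k).2.symm (k2 k).2.symm)]
    simp only [← integral_add (k1 _).1 (k2 _).1]
    rw [← integral_finsetSum _ fun k _ => (k1 k).1.fun_add (k2 k).1, ← integral_const_mul,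
      ← integral_add ((integrable_finsetSum _ fun k _ => (k1 k).1.fun_add (k2 k).1).const_mul _)
        k3.1]
    congr 1
    ext x
    simp [ed, Fintype.sum_prod_type, Fin.sum_univ_three]
    ring

theorem ground_marg {M : ℕ} {Z : Fin M → ℕ} {R : Fin M → R3} {Ψ : ElectronState 2}
    (hΨ : IsGroundState (coulombPotential Z R) Ψ) : ∃ K ρ τ P, Marg (nuc Z R) K ρ τ P ∧
      ∀ᵐ r, density Ψ r = 2 * ρ r := by
  obtain ⟨K, H⟩ := exists_marg Z R _ (low_of_ground hΨ)
  refine ⟨K, _, _, _, Marg.sum fun j => H _ _ (hh_part Ψ j) (part_zero hΨ j), ?_⟩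
  filter_upwards [ae_all_iff.2 fun j =>
    H943.ae_integrable_slice (hh_part Ψ j).mem.integrable_sq] with r hr
  rw [density_eq, Fintype.sum_prod_type]
  congr 1
  · norm_num
  · refine Finset.sum_congr rfl fun s _ => ?_
    simpa [sl] using (int_part (w := fun _ => 1) (F := fun y : Conf 1 => Ψ.amp s (Fin.cons r y))
      fun t => (hr (s, t)).const_mul 1).symm

end

end Vale.Agent.N363
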