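import Vale.Agent.N363.Marg

/-!
# P363: the square root of the density is the ground state of a one-body operator
-/

namespace Vale.Agent.N363

open MeasureTheory Filter Topology Set Metric
open Vale.Agent.P363 Vale.Agent.P363.R.Sob Vale.Agent.P363.Stmt Vale.Agent.P363.H382
open Vale.Agent.P363.R.KS (H1 qf)
open scoped ContDiff ENNReal RealInnerProductSpace

noncomputable section

variable {U : R3 → ℝ} {C c : ℝ} {a ρ P : R3 → ℝ} {b τ : Fin 3 → R3 → ℝ}

theorem Marg.star_lip (h : Marg U C ρ τ P) (ha : AEStronglyMeasurable a volume)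
    (hb : ∀ k, AEStronglyMeasurable (b k) volume) (a0 : ∀ᵐ r, ‖a r‖ ≤ c)
    (b0 : ∀ k, ∀ᵐ r, ‖b k r‖ ≤ c) (w : ∀ k, IsWD volume (e3 k) a (b k)) :
    0 ≤ ∫ r, st a b ρ τ P r := by
  have la := (memLp_top_of_bound ha c a0).locallyIntegrable le_top
  have lb := fun k => (memLp_top_of_bound (hb k) c (b0 k)).locallyIntegrable le_top
  have cv : ∀ {u : R3 → ℝ}, LocallyIntegrable u → ∀ᵐ r,
      Tendsto (fun n => moll volume (stdBump n) u r) atTop (𝓝 (u r)) := fun hu =>
    ContDiffBump.ae_convolution_tendsto_right_of_locallyIntegrable (K := 2) tendsto_stdBump_rOut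
      (Eventually.of_forall fun n => le_of_eq (by
        simp only [stdBump]
        field_simp)) hu
  have e : ∀ n k, dd (e3 k) (moll volume (stdBump n) a) = moll volume (stdBump n) (b k) :=
    fun n k => funext (fderiv_moll _ (w k) la)
  have A0 := fun n => norm_moll_le (stdBump n) a0
  have B0 := fun n k => norm_moll_le (stdBump n) (b0 k)
  have hs := fun n => h.star _ (moll_contDiff (stdBump n) la) c (A0 n) fun k r => by
    rw [e]
    exact B0 n k r
  simp only [e] at hs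
  refine ge_of_tendsto' (tendsto_integral_of_dominated_convergence
    (fun r => 1 / 2 * ∑ k, (c * c * ‖ρ r‖ + c * c * ‖τ k r‖) + c * c * ‖P r‖)
    (fun n => (h.int_st (moll_contDiff _ la).continuous.aestronglyMeasurable
      (fun k => (moll_contDiff _ (lb k)).continuous.aestronglyMeasurable) (A0 n) (B0 n)).1)
    (((integrable_finsetSum _ fun k _ => (h.iρ.norm.const_mul _).add
      ((h.iτ k).norm.const_mul _)).const_mul _).add (h.iP.norm.const_mul _))
    (fun n => ae_of_all _ fun r => ?_) ?_) hs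
  · have m : ∀ x y z : ℝ, ‖x‖ ≤ c → ‖y‖ ≤ c → ‖x * y * z‖ ≤ c * c * ‖z‖ := fun x y z hx hy => by
      rw [norm_mul, norm_mul]
      gcongr
      exact (norm_nonneg _).trans hx
    simp only [st, sq]
    refine norm_add_le_of_le ?_ (m _ _ _ (A0 n r) (A0 n r))
    rw [norm_mul, Real.norm_of_nonneg (by norm_num)]
    exact mul_le_mul_of_nonneg_left (norm_sum_le_of_le _ fun k _ => norm_add_le_of_le
      (m _ _ _ (B0 n k r) (B0 n k r)) (m _ _ _ (A0 n r) (B0 n k r))) (by norm_num)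
  · filter_upwards [cv la, ae_all_iff.2 fun k => cv (lb k)] with r h1 h2
    exact ((tendsto_finsetSum _ fun k _ => (((h2 k).pow 2).mul_const _).add
      ((h1.mul (h2 k)).mul_const _)).const_mul _).add ((h1.pow 2).mul_const _)

theorem exists_theta : ∃ θ : ℕ → ℝ → ℝ, (∀ n t, 0 ≤ θ n t ∧ θ n t ≤ n + 1 ∧
    |t| * θ n t ^ 2 ≤ 1 ∧ HasDerivAt (θ n) (-(1 / 2) * t * θ n t ^ 5) t) ∧
    ∀ t, 0 ≤ t → Tendsto (fun n => √t * θ n t) atTop (𝓝 (if 0 < t then 1 else 0)) := by
  refine ⟨fun n t => (t ^ 2 + (1 / ((n : ℝ) + 1)) ^ 4) ^ (-(1 / 4) : ℝ), fun n t => ?_,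
    fun t ht => ?_⟩
  · have hy : 0 < t ^ 2 + (1 / ((n : ℝ) + 1)) ^ 4 := by positivity
    have h0 := Real.rpow_nonneg hy.le (-(1 / 4))
    have h4 : ((t ^ 2 + (1 / ((n : ℝ) + 1)) ^ 4) ^ (-(1 / 4) : ℝ)) ^ 4 *
        (t ^ 2 + (1 / ((n : ℝ) + 1)) ^ 4) = 1 := by
      rw [← Real.rpow_mul_natCast hy.le, show (-(1 / 4) : ℝ) * (4 : ℕ) = -1 by norm_num,
        Real.rpow_neg_one, inv_mul_cancel₀ hy.ne']
    refine ⟨h0, ?_, ?_, ?_⟩
    · rw [← div_le_one (by positivity), ← pow_le_one_iff_of_nonneg (by positivity) four_ne_zero,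
        div_eq_mul_one_div, mul_pow]
      exact le_of_le_of_eq (mul_le_mul_of_nonneg_left (le_add_of_nonneg_left (sq_nonneg _))
        (by positivity)) h4
    · rw [← pow_le_one_iff_of_nonneg (by positivity) two_ne_zero, mul_pow, sq_abs, ← pow_mul,
        mul_comm]
      exact le_of_le_of_eq (mul_le_mul_of_nonneg_left (le_add_of_nonneg_right (by positivity))
        (by positivity)) h4
    · refine (((hasDerivAt_pow 2 t).add_const _).rpow_const (Or.inl hy.ne')).congr_deriv ?_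
      rw [← Real.rpow_mul_natCast hy.le, show (-(1 / 4) : ℝ) * (5 : ℕ) = -(1 / 4) - 1 by norm_num]
      congr 1
      norm_num
      ring
  · split_ifs with h
    · have := ((((tendsto_one_div_add_atTop_nhds_zero_nat (𝕜 := ℝ)).pow 4).const_add
        (t ^ 2)).rpow_const (p := -(1 / 4)) (Or.inl (by positivity))).const_mul √t
      refine le_of_le_of_eq this (congrArg _ ?_)
      rw [zero_pow four_ne_zero, add_zero, ← Real.rpow_natCast_mul ht, Real.sqrt_eq_rpow,
        ← Real.rpow_add h, show (1 / 2 : ℝ) + (2 : ℕ) * -(1 / 4) = 0 by norm_num,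
        Real.rpow_zero]
    · simp [le_antisymm (not_lt.1 h) ht]

/-- The logarithmic gradient of the square root. -/
def sg (ρ : R3 → ℝ) (τ : Fin 3 → R3 → ℝ) (k : Fin 3) (r : R3) : ℝ := τ k r / (2 * ρ r)

/-- The potential. -/
def vv (ρ : R3 → ℝ) (τ : Fin 3 → R3 → ℝ) (P : R3 → ℝ) (r : R3) : ℝ :=
  P r / ρ r - 1 / 2 * ∑ k, sg ρ τ k r ^ 2

theorem Marg.m_sg (h : Marg U C ρ τ P) (k : Fin 3) : AEStronglyMeasurable (sg ρ τ k) volume :=
  ((h.iτ k).1.aemeasurable.div (h.iρ.1.aemeasurable.const_mul 2)).aestronglyMeasurable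

theorem Marg.m_vv (h : Marg U C ρ τ P) : AEStronglyMeasurable (vv ρ τ P) volume :=
  (h.iP.1.aemeasurable.div h.iρ.1.aemeasurable).aestronglyMeasurable.sub
    ((Finset.aestronglyMeasurable_fun_sum _ fun k _ => (h.m_sg k).pow 2).const_mul _)

theorem Marg.ae (h : Marg U C ρ τ P) : ∀ᵐ r, (∀ k, τ k r = 2 * ρ r * sg ρ τ k r ∧
    sg ρ τ k r ^ 2 ≤ C ^ 2) ∧ P r = ρ r * (P r / ρ r) ∧ |P r / ρ r| ≤ |U r| + |C| ∧
    (0 < ρ r → |vv ρ τ P r - U r| ≤ |C| + 2 * C ^ 2) := by
  filter_upwards [ae_all_iff.2 h.bτ, h.bP] with r h1 h2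
  rcases (h.nn r).eq_or_lt with h0 | h0
  · rw [← h0] at h2 ⊢
    simp only [← h0, mul_zero, sub_zero, abs_nonpos_iff] at h1 h2
    simp [sg, h1, h2, ← h0, sq_nonneg, add_nonneg]
  · have e1 : ∀ k, τ k r = 2 * ρ r * sg ρ τ k r := fun k => by
      unfold sg
      field_simp
    have e2 : P r = ρ r * (P r / ρ r) := by field_simp
    have b1 : ∀ k, sg ρ τ k r ^ 2 ≤ C ^ 2 := fun k => by
      have := h1 k
      rw [e1, abs_mul, abs_of_pos (by positivity : 0 < 2 * ρ r)] at this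
      rw [sq_le_sq]
      nlinarith [le_abs_self C, abs_nonneg C]
    have b2 : |P r / ρ r - U r| ≤ |C| := by
      rw [e2, mul_comm (U r), ← mul_sub, abs_mul, abs_of_pos h0] at h2
      nlinarith [le_abs_self C]
    refine ⟨fun k => ⟨e1 k, b1 k⟩, e2, by linarith [abs_sub_abs_le_abs_sub (P r / ρ r) (U r)],
      fun _ => ?_⟩
    rw [abs_le] at b2 ⊢
    rw [vv, Fin.sum_univ_three]
    constructor <;> nlinarith [b1 0, b1 1, b1 2, sq_nonneg (sg ρ τ 0 r), sq_nonneg (sg ρ τ 1 r),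
      sq_nonneg (sg ρ τ 2 r), sq_nonneg C]

theorem Marg.vv_zero (h : Marg U C ρ τ P) {r : R3} (h0 : ¬0 < ρ r) : vv ρ τ P r = 0 := by
  simp [vv, sg, le_antisymm (not_lt.1 h0) (h.nn r)]

theorem Marg.memV (h : Marg U C ρ τ P) (hU : MemV U) : MemV (vv ρ τ P) := by
  obtain ⟨p, q, hp, hq, e⟩ := hU
  replace hp : MemLp p (3 / 2) volume := hp
  replace hq : MemLp q ⊤ volume := hq
  have m := aesm_indicator_pos h.iρ.1 hp.1
  have k1 : MemLp (fun r => if 0 < ρ r then p r else 0) (3 / 2) volume :=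
    hp.of_le m (ae_of_all _ fun r => by split_ifs <;> simp)
  have k2 : MemLp (fun r => vv ρ τ P r - if 0 < ρ r then p r else 0) ⊤ volume := by
    have k3 : MemLp (fun r => |C| + 2 * C ^ 2 + ‖q r‖) ⊤ volume :=
      MemLp.add (f := fun _ => |C| + 2 * C ^ 2) (g := fun r => ‖q r‖) (memLp_top_const _) hq.norm
    have k4 : AEStronglyMeasurable (fun r => vv ρ τ P r - if 0 < ρ r then p r else 0) volume :=
      h.m_vv.sub m
    refine k3.of_le k4 ?_
    filter_upwards [h.ae] with r hr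
    split_ifs with h0
    · have := hr.2.2.2 h0
      refine le_trans ?_ (le_abs_self _)
      simp only [e, Pi.add_apply, Real.norm_eq_abs] at this ⊢
      linarith [abs_add_le (vv ρ τ P r - (p r + q r)) (q r), congrArg abs
        (show vv ρ τ P r - (p r + q r) + q r = vv ρ τ P r - p r by ring)]
    · simp [h.vv_zero h0]
  exact ⟨_, _, k1, k2, funext fun r => (add_sub_cancel _ _).symm⟩

theorem qf_eq {v f : R3 → ℝ} {g : Fin 3 → R3 → ℝ} (hv : MemV v) (hf : H1 f g) :
    Integrable (fun r => 1 / 2 * ∑ k, g k r ^ 2 + v r * f r ^ 2) ∧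
      qf v 0 f g f g = ∫ r, 1 / 2 * ∑ k, g k r ^ 2 + v r * f r ^ 2 := by
  have i1 := (integrable_finsetSum Finset.univ fun k _ => (hf.gmem k).integrable_sq).const_mul
    (1 / 2)
  have i2 := (H700.H1.form_bound hf hv one_pos).1
  exact ⟨i1.add i2, by rw [H700.qf_self, integral_add i1 i2, integral_const_mul]⟩

theorem Marg.comp (h : Marg U C ρ τ P) {Φ Φ' : ℝ → ℝ} (hΦ : ∀ t, HasDerivAt Φ (Φ' t) t)
    (hc : Continuous Φ') {B : ℝ} (hB : ∀ t, |Φ' t| ≤ B) (k : Fin 3) :
    IsWD volume (e3 k) (fun r => Φ (ρ r)) (fun r => Φ' (ρ r) * τ k r) ∧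
      Integrable fun r => Φ' (ρ r) * τ k r :=
  ⟨(h.wd k).comp h.iρ.locallyIntegrable (h.iτ k).locallyIntegrable hΦ hc B hB,
    (h.iτ k).bdd_mul (hc.comp_aestronglyMeasurable h.iρ.1) (ae_of_all _ fun _ => hB _)⟩

theorem test_H1 {f : R3 → ℝ} (hf : Test f) : H1 f fun k r => fderiv ℝ f r (e3 k) :=
  ⟨hf.memLp 2, fun _ => (hf.fderiv _).memLp 2, fun _ => isWD_of_contDiff (hf.1.of_le (by simp))⟩

theorem Marg.low_test (h : Marg U C ρ τ P) (hU : MemV U) {f : R3 → ℝ} (hf : Test f) :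
    0 ≤ ∫ r, 1 / 2 * ∑ k, fderiv ℝ f r (e3 k) ^ 2 + vv ρ τ P r * f r ^ 2 := by
  obtain ⟨θ, hθ, lim⟩ := exists_theta
  have H := test_H1 hf
  have I := (qf_eq (h.memV hU) H).1
  obtain ⟨c, hc⟩ := hf.2.exists_bound_of_continuous hf.continuous
  choose d hd using fun k : Fin 3 => (hf.fderiv (e3 k)).2.exists_bound_of_continuous
    (hf.fderiv (e3 k)).continuous
  have p : ∀ k, 0 ≤ d k := fun k => (norm_nonneg _).trans (hd k 0)
  have q : 0 ≤ c := (norm_nonneg _).trans (hc 0)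
  have ct : ∀ n, Continuous (θ n) := fun n =>
    continuous_iff_continuousAt.2 fun t => (hθ n t).2.2.2.continuousAt
  have mρ := h.iρ.1
  have mθ : ∀ n, AEStronglyMeasurable (fun r => θ n (ρ r)) volume := fun n =>
    (ct n).comp_aestronglyMeasurable mρ
  have mf := hf.continuous.aestronglyMeasurable (μ := volume)
  have mb : ∀ n k, AEStronglyMeasurable (fun r => fderiv ℝ f r (e3 k) * θ n (ρ r) +
      f r * (-(1 / 2) * ρ r * θ n (ρ r) ^ 5 * τ k r)) volume := fun n k =>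
    ((H.gmem k).1.mul (mθ n)).add (mf.mul (((mρ.const_mul _).mul ((mθ n).pow 5)).mul (h.iτ k).1))
  have key : ∀ n, 0 ≤ ∫ r, st (fun r => f r * θ n (ρ r)) (fun k r =>
      fderiv ℝ f r (e3 k) * θ n (ρ r) + f r * (-(1 / 2) * ρ r * θ n (ρ r) ^ 5 * τ k r))
      ρ τ P r := fun n => by
    have N : (0 : ℝ) ≤ n + 1 := by positivity
    have S : 0 ≤ ∑ k, d k := Finset.sum_nonneg fun k _ => p k
    refine h.star_lip (c := (c + ∑ k, d k + c * |C|) * (n + 1)) (mf.mul (mθ n)) (mb n)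
      (ae_of_all _ fun r => ?_) (fun k => ?_) fun k => ?_
    · rw [norm_mul, Real.norm_of_nonneg (hθ n _).1]
      exact mul_le_mul ((hc r).trans (by nlinarith [abs_nonneg C])) (hθ n _).2.1 (hθ n _).1
        (by positivity)
    · filter_upwards [h.ae] with r hr
      obtain ⟨t0, t1, t2, -⟩ := hθ n (ρ r)
      rw [abs_of_nonneg (h.nn r)] at t2
      have r0 := h.nn r
      have e : -(1 / 2) * ρ r * θ n (ρ r) ^ 5 * τ k r =
          -((ρ r * θ n (ρ r) ^ 2) ^ 2 * sg ρ τ k r * θ n (ρ r)) := by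
        rw [(hr.1 k).1]
        ring
      have s1 := sq_le_sq.1 (hr.1 k).2
      have s2 := (hd k r).trans (Finset.single_le_sum (fun k _ => p k) (Finset.mem_univ k))
      have s3 : (ρ r * θ n (ρ r) ^ 2) ^ 2 ≤ 1 := pow_le_one₀ (by positivity) t2
      refine (norm_add_le_of_le (r₁ := (∑ k, d k) * (n + 1)) (r₂ := c * (1 * |C| * (n + 1)))
        ?_ ?_).trans (by nlinarith)
      · rw [norm_mul, Real.norm_of_nonneg t0]
        gcongr
      · rw [e, norm_mul, norm_neg, norm_mul, norm_mul, Real.norm_of_nonneg t0,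
          Real.norm_of_nonneg (sq_nonneg _)]
        gcongr
        exacts [hc r, s1]
    · obtain ⟨w, i⟩ := h.comp (fun t => (hθ n t).2.2.2) (by have := ct n; fun_prop)
        (B := 1 * (n + 1) ^ 3) (fun t => by
          obtain ⟨t0, t1, t2, -⟩ := hθ n t
          rw [abs_mul, abs_mul, abs_of_nonneg (pow_nonneg t0 5), abs_neg, abs_of_pos one_half_pos]
          refine le_trans ?_ (mul_le_mul t2 (pow_le_pow_left₀ t0 t1 3) (by positivity) zero_le_one)
          nlinarith [mul_nonneg (abs_nonneg t) (pow_nonneg t0 5)]) k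
      exact w.smooth_smul hf.1 ((memLp_top_of_bound (mθ n) (n + 1) (ae_of_all _ fun r => by
          rw [Real.norm_of_nonneg (hθ n _).1]
          exact (hθ n _).2.1)).locallyIntegrable le_top) i.locallyIntegrable
  have id : ∀ᵐ r, ∀ n, st (fun r => f r * θ n (ρ r)) (fun k r =>
      fderiv ℝ f r (e3 k) * θ n (ρ r) + f r * (-(1 / 2) * ρ r * θ n (ρ r) ^ 5 * τ k r))
      ρ τ P r = (√(ρ r) * θ n (ρ r)) ^ 2 * (1 / 2 * ∑ k, ((fderiv ℝ f r (e3 k) +
        (1 - ((√(ρ r) * θ n (ρ r)) ^ 2) ^ 2) * (f r * sg ρ τ k r)) ^ 2 -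
        (f r * sg ρ τ k r) ^ 2) + P r / ρ r * f r ^ 2) := by
    filter_upwards [h.ae] with r hr n
    rw [st, mul_pow (√_), Real.sq_sqrt (h.nn r), Fin.sum_univ_three, Fin.sum_univ_three,
      (hr.1 0).1, (hr.1 1).1, (hr.1 2).1]
    nth_rewrite 1 [hr.2.1]
    ring
  have J := (H700.H1.form_bound H hU one_pos).1.norm
  have T := tendsto_integral_of_dominated_convergence (μ := volume)
    (F := fun n => st (fun r => f r * θ n (ρ r)) (fun k r => fderiv ℝ f r (e3 k) * θ n (ρ r) +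
      f r * (-(1 / 2) * ρ r * θ n (ρ r) ^ 5 * τ k r)) ρ τ P)
    (f := fun r => if 0 < ρ r then 1 / 2 * ∑ k, fderiv ℝ f r (e3 k) ^ 2 + vv ρ τ P r * f r ^ 2
      else 0)
    (fun r => 1 / 2 * ∑ k, (2 * fderiv ℝ f r (e3 k) ^ 2 + 3 * C ^ 2 * f r ^ 2) +
      (‖U r * f r ^ 2‖ + |C| * f r ^ 2))
    (fun n => ((Finset.aestronglyMeasurable_fun_sum _ fun k _ => (((mb n k).pow 2).mul mρ).add
      (((mf.mul (mθ n)).mul (mb n k)).mul (h.iτ k).1)).const_mul _).add
      (((mf.mul (mθ n)).pow 2).mul h.iP.1))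
    (((integrable_finsetSum _ fun k _ => ((H.gmem k).integrable_sq.const_mul _).add
      (H.mem.integrable_sq.const_mul _)).const_mul _).add
      (J.add (H.mem.integrable_sq.const_mul _))) (fun n => ?_) ?_
  · refine (ge_of_tendsto' T key).trans (integral_mono (I.mono (aesm_indicator_pos mρ I.1)
      (ae_of_all _ fun r => by split_ifs <;> simp)) I fun r => ?_)
    dsimp only
    split_ifs with h0
    · exact le_rfl
    · rw [h.vv_zero h0]
      positivity
  · filter_upwards [id, h.ae] with r e hr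
    have u1 : (√(ρ r) * θ n (ρ r)) ^ 2 ≤ 1 := by
      rw [mul_pow, Real.sq_sqrt (h.nn r)]
      exact le_of_eq_of_le (by rw [abs_of_nonneg (h.nn r)]) (hθ n _).2.2.1
    rw [e n, norm_mul, Real.norm_of_nonneg (sq_nonneg _)]
    generalize (√(ρ r) * θ n (ρ r)) = u at u1
    have u2 : (u ^ 2) ^ 2 ≤ 1 := pow_le_one₀ (sq_nonneg _) u1
    refine (mul_le_of_le_one_left (norm_nonneg _) u1).trans (norm_add_le_of_le ?_ ?_)
    · rw [norm_mul, Real.norm_of_nonneg (by norm_num)]
      refine mul_le_mul_of_nonneg_left (norm_sum_le_of_le _ fun k _ => ?_) (by norm_num)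
      have y : (f r * sg ρ τ k r) ^ 2 ≤ C ^ 2 * f r ^ 2 := by
        rw [mul_pow, mul_comm]
        exact mul_le_mul_of_nonneg_right (hr.1 k).2 (sq_nonneg _)
      have z : ((1 - (u ^ 2) ^ 2) * (f r * sg ρ τ k r)) ^ 2 ≤ (f r * sg ρ τ k r) ^ 2 := by
        rw [mul_pow]
        exact mul_le_of_le_one_left (sq_nonneg _) (pow_le_one₀ (by linarith)
          (sub_le_self _ (sq_nonneg _)))
      rw [Real.norm_eq_abs, abs_le]
      generalize (1 - (u ^ 2) ^ 2) * (f r * sg ρ τ k r) = w at z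
      constructor <;> nlinarith [sq_nonneg (fderiv ℝ f r (e3 k) + w),
        sq_nonneg (fderiv ℝ f r (e3 k) - w), sq_nonneg (fderiv ℝ f r (e3 k)),
        sq_nonneg (f r * sg ρ τ k r)]
    · rw [norm_mul, norm_mul, Real.norm_of_nonneg (sq_nonneg (f r)), ← add_mul]
      exact mul_le_mul_of_nonneg_right hr.2.2.1 (sq_nonneg _)
  · filter_upwards [id] with r e
    simp only [e]
    have l := (lim _ (h.nn r)).pow 2
    refine le_of_le_of_eq (l.mul (((tendsto_finsetSum _ fun k _ => (((((l.pow 2).const_sub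
      1).mul_const _).const_add _).pow 2).sub_const _).const_mul _).add_const _)) (congrArg _ ?_)
    split_ifs
    · simp only [vv, Fin.sum_univ_three]
      ring
    · simp

theorem Marg.low (h : Marg U C ρ τ P) (hU : MemV U) (f : R3 → ℝ) (g : Fin 3 → R3 → ℝ)
    (hf : H1 f g) : 0 ≤ qf (vv ρ τ P) 0 f g f g := by
  have hv := h.memV hU
  obtain ⟨fn, s1, s2, c1, c2⟩ := exists_test_approx hf.mem hf.gmem hf.wd
  have Hn := fun n => test_H1 ⟨s1 n, s2 n⟩
  have Hd : ∀ n, H1 (fn n - f) fun k => (fun r => fderiv ℝ (fn n) r (e3 k)) - g k := fun n =>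
    ⟨(Hn n).mem.sub hf.mem, fun k => ((Hn n).gmem k).sub (hf.gmem k), fun k =>
      ((Hn n).wd k).sub (hf.wd k) (Hn n).locInt ((Hn n).glocInt k) hf.locInt (hf.glocInt k)⟩
  have t1 := tendsto_integral_sq_of_eLpNorm (fun n => (Hd n).mem) c1
  have t2 := tendsto_finsetSum Finset.univ fun k _ =>
    tendsto_integral_sq_of_eLpNorm (fun n => (Hd n).gmem k) (c2 k)
  simp only [Real.norm_eq_abs, sq_abs] at t1 t2
  have A : ∀ {f g}, H1 f g → Integrable fun r => 1 / 2 * ∑ k, g k r ^ 2 +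
      |vv ρ τ P r| * f r ^ 2 := fun hf =>
    ((integrable_finsetSum _ fun k _ => (hf.gmem k).integrable_sq).const_mul _).add
      ((H700.H1.form_bound hf hv one_pos).1.abs.congr (ae_of_all _ fun r => by simp [abs_mul]))
  obtain ⟨I, e⟩ := qf_eq hv hf
  refine le_of_forall_pos_le_add fun ε hε => ?_
  obtain ⟨η, hη, hη'⟩ := exists_pos_mul_lt hε
    (∫ r, 1 / 2 * ∑ k, g k r ^ 2 + |vv ρ τ P r| * f r ^ 2)
  have := ge_of_tendsto' ((((t2.const_mul (3 / 2)).add (t1.const_mul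
    (H700.formC hv one_pos))).const_mul (1 + 1 / η)).const_add (qf (vv ρ τ P) 0 f g f g + ε))
    (b := 0) fun n => ?_
  · simpa using this
  obtain ⟨b1, b2⟩ := H700.H1.form_bound (Hd n) hv one_pos
  refine (h.low_test hU ⟨s1 n, s2 n⟩).trans ((integral_mono (qf_eq hv (Hn n)).1
    ((I.fun_add ((A hf).mul_const η)).fun_add ((A (Hd n)).const_mul (1 + 1 / η)))
    fun r => ?_).trans ?_)
  · have k : ∀ x y : ℝ, |x ^ 2 - y ^ 2| ≤ y ^ 2 * η + (1 + 1 / η) * (x - y) ^ 2 := fun x y => by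
      have e : (x - y) ^ 2 / η * η = (x - y) ^ 2 := by field_simp
      have a1 : 0 ≤ (η * y - (x - y)) ^ 2 / η := by positivity
      have a2 : 0 ≤ (η * y + (x - y)) ^ 2 / η := by positivity
      rw [show (η * y - (x - y)) ^ 2 / η = y ^ 2 * η - 2 * y * (x - y) + 1 / η * (x - y) ^ 2 by
        field_simp; ring] at a1
      rw [show (η * y + (x - y)) ^ 2 / η = y ^ 2 * η + 2 * y * (x - y) + 1 / η * (x - y) ^ 2 by
        field_simp; ring] at a2
      rw [abs_le]
      constructor <;> nlinarith [sq_nonneg (x - y)]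
    have k1 := fun j => (le_abs_self _).trans (k (fderiv ℝ (fn n) r (e3 j)) (g j r))
    have k2 := (le_abs_self _).trans ((abs_mul _ _).trans_le (mul_le_mul_of_nonneg_left
      (k (fn n r) (f r)) (abs_nonneg (vv ρ τ P r))))
    simp only [Fin.sum_univ_three, Pi.sub_apply]
    linarith [k1 0, k1 1, k1 2]
  · rw [integral_add (I.fun_add ((A hf).mul_const η)) ((A (Hd n)).const_mul _),
      integral_add I ((A hf).mul_const η), ← e, integral_mul_const, integral_const_mul,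
      integral_add ((integrable_finsetSum _ fun k _ => ((Hd n).gmem k).integrable_sq).const_mul _)
        (b1.abs.congr (ae_of_all _ fun r => by simp [abs_mul])), integral_const_mul,
      integral_finsetSum _ fun k _ => ((Hd n).gmem k).integrable_sq]
    exact add_le_add (add_le_add le_rfl hη'.le)
      (mul_le_mul_of_nonneg_left (by linarith) (by positivity))

theorem Marg.sqrt_H1 (h : Marg U C ρ τ P) :
    H1 (fun r => √(ρ r)) fun k r => sg ρ τ k r * √(ρ r) := by
  have mρ := h.iρ.1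
  have ms : AEStronglyMeasurable (fun r => √(ρ r)) volume :=
    Real.continuous_sqrt.comp_aestronglyMeasurable mρ
  have m1 : MemLp (fun r => √(ρ r)) 2 volume := (memLp_two_iff_integrable_sq ms).2
    (h.iρ.congr (ae_of_all _ fun r => (Real.sq_sqrt (h.nn r)).symm))
  have m2 : ∀ k, MemLp (fun r => sg ρ τ k r * √(ρ r)) 2 volume := fun k =>
    m1.of_le_mul (c := |C|) ((h.m_sg k).mul ms) (h.ae.mono fun r hr => by
      rw [norm_mul]
      exact mul_le_mul_of_nonneg_right (sq_le_sq.1 (hr.1 k).2) (norm_nonneg _))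
  refine ⟨m1, m2, fun k φ hφ => ?_⟩
  obtain ⟨θ, hθ, lim⟩ := exists_theta
  have ct : ∀ n, Continuous (θ n) := fun n =>
    continuous_iff_continuousAt.2 fun t => (hθ n t).2.2.2.continuousAt
  have W := fun n => h.comp (fun t => (hasDerivAt_id t).mul (hθ n t).2.2.2)
    (by have := ct n; fun_prop) (B := n + 1) (fun t => by
      obtain ⟨t0, t1, t2, -⟩ := hθ n t
      have t3 : (|t| * θ n t ^ 2) ^ 2 ≤ 1 := pow_le_one₀ (by positivity) t2
      rw [mul_pow, sq_abs] at t3
      rw [show 1 * θ n t + id t * (-(1 / 2) * t * θ n t ^ 5) =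
        θ n t * (1 - t ^ 2 * (θ n t ^ 2) ^ 2 / 2) by simp only [id]; ring,
        abs_of_nonneg (mul_nonneg t0 (by linarith))]
      exact (mul_le_of_le_one_right t0 (sub_le_self _ (by positivity))).trans t1) k
  have u : ∀ n r, 0 ≤ √(ρ r) * θ n (ρ r) ∧ √(ρ r) * θ n (ρ r) ≤ 1 := fun n r => by
    have := mul_nonneg (Real.sqrt_nonneg (ρ r)) (hθ n (ρ r)).1
    refine ⟨this, (pow_le_one_iff_of_nonneg this two_ne_zero).1 ?_⟩
    rw [mul_pow, Real.sq_sqrt (h.nn r)]
    exact le_of_eq_of_le (by rw [abs_of_nonneg (h.nn r)]) (hθ n _).2.2.1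
  have e1 : ∀ n r, ρ r * θ n (ρ r) = √(ρ r) * θ n (ρ r) * √(ρ r) := fun n r => by
    rw [mul_right_comm, Real.mul_self_sqrt (h.nn r)]
  have e2 : ∀ᵐ r, ∀ n, (1 * θ n (ρ r) + ρ r * (-(1 / 2) * ρ r * θ n (ρ r) ^ 5)) * τ k r =
      √(ρ r) * θ n (ρ r) * (2 - (√(ρ r) * θ n (ρ r)) ^ 4) * (sg ρ τ k r * √(ρ r)) := by
    filter_upwards [h.ae] with r hr n
    rw [(hr.1 k).1]
    have := Real.sq_sqrt (h.nn r)
    generalize √(ρ r) = s at this ⊢
    generalize θ n (ρ r) = t
    rw [← this]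
    ring
  have i1 := (hφ.fderiv (e3 k)).integrable_smul (m1.locallyIntegrable one_le_two)
  have i2 := hφ.integrable_smul ((m2 k).locallyIntegrable one_le_two)
  have T1 := tendsto_integral_of_dominated_convergence (μ := volume)
    (F := fun n r => fderiv ℝ φ r (e3 k) • (ρ r * θ n (ρ r))) _
    (fun n => (hφ.fderiv _).continuous.aestronglyMeasurable.smul
      (mρ.mul ((ct n).comp_aestronglyMeasurable mρ))) i1.norm
    (fun n => ae_of_all _ fun r => by
      rw [e1, norm_smul, norm_smul, norm_mul, Real.norm_of_nonneg (u n r).1]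
      exact mul_le_mul_of_nonneg_left (mul_le_of_le_one_left (norm_nonneg _) (u n r).2)
        (norm_nonneg _)) (f := fun r => fderiv ℝ φ r (e3 k) • √(ρ r)) (ae_of_all _ fun r => by
      simp only [e1]
      refine le_of_le_of_eq (((lim _ (h.nn r)).mul_const _).const_smul _) (congrArg _ ?_)
      split_ifs with h0
      · rw [one_mul]
      · simp [le_antisymm (not_lt.1 h0) (h.nn r)])
  have T2 := tendsto_integral_of_dominated_convergence (μ := volume)
    (F := fun n r => φ r • ((1 * θ n (ρ r) + ρ r * (-(1 / 2) * ρ r * θ n (ρ r) ^ 5)) * τ k r)) _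
    (fun n => hφ.continuous.aestronglyMeasurable.smul (W n).2.1) (i2.norm.const_mul 2)
    (fun n => e2.mono fun r hr => by
      have a := pow_nonneg (u n r).1 4
      have b := pow_le_one₀ (n := 4) (u n r).1 (u n r).2
      rw [hr, norm_smul, norm_smul, norm_mul, mul_left_comm,
        Real.norm_of_nonneg (mul_nonneg (u n r).1 (by linarith))]
      exact mul_le_mul_of_nonneg_right (by nlinarith [u n r]) (by positivity))
    (f := fun r => φ r • (sg ρ τ k r * √(ρ r))) (e2.mono fun r hr => by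
      simp only [hr]
      have l := lim _ (h.nn r)
      refine le_of_le_of_eq (((l.mul ((l.pow 4).const_sub 2)).mul_const _).const_smul _)
        (congrArg _ ?_)
      split_ifs with h0
      · norm_num
      · simp [le_antisymm (not_lt.1 h0) (h.nn r)])
  exact tendsto_nhds_unique T1 (T2.neg.congr fun n => ((W n).1 φ hφ).symm)

theorem Marg.one (h : Marg U C ρ τ P) (hU : MemV U) (hne : ∫ r, ρ r ≠ 0) :
    ∃ (v s : R3 → ℝ) (g : Fin 3 → R3 → ℝ), MemV v ∧ MemLp (v - U) ⊤ volume ∧ H1 s g ∧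
      (∀ r, s r ^ 2 = ρ r) ∧ (∀ᵐ r, 0 < ρ r) ∧ (∀ f k, H1 f k → 0 ≤ qf v 0 f k f k) ∧
      qf v 0 s g s g = 0 := by
  have hv := h.memV hU
  have e := fun r => Real.sq_sqrt (h.nn r)
  have z : qf (vv ρ τ P) 0 _ _ _ _ = 0 := (qf_eq hv h.sqrt_H1).2.trans (by
    rw [← h.zero]
    refine integral_congr_ae (h.ae.mono fun r hr => ?_)
    simp only [mul_pow, e, vv, Fin.sum_univ_three]
    nth_rewrite 2 [hr.2.1]
    ring)
  have pos : ∀ᵐ r, 0 < ρ r := by
    rcases H95.sign_of_min hv (h.low hU) h.sqrt_H1 (by simpa only [e] using hne) z with p | p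
    · exact p.mono fun r hr => Real.sqrt_pos.1 hr
    · exact p.mono fun r hr => absurd hr (not_lt.2 (Real.sqrt_nonneg _))
  obtain ⟨p, q, hp, hq, eU⟩ := id hU
  refine ⟨_, _, _, hv, memLp_top_of_bound (h.m_vv.sub (eU ▸ hp.1.add hq.1)) (|C| + 2 * C ^ 2) ?_,
    h.sqrt_H1, e, pos, h.low hU, z⟩
  filter_upwards [h.ae, pos] with r hr h0
  exact hr.2.2.2 h0

end

end Vale.Agent.N363
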