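import Vale.Agent.N363.Jastrow

/-!
# P363: ground states of two electrons minimise the form among all functions
-/

namespace Vale.Agent.N363

open MeasureTheory Filter Topology Set Metric
open Vale.Agent.P363 Vale.Agent.P363.R.Sob Vale.Agent.P363.Stmt Vale.Agent.P363.H382
open scoped ContDiff ENNReal RealInnerProductSpace

noncomputable section

section General

variable {E : Type*} [NormedAddCommGroup E] [NormedSpace ℝ E] [FiniteDimensional ℝ E]
  [MeasurableSpace E] [BorelSpace E] {μ : Measure E} [μ.IsAddHaarMeasure]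
  {ι : Type*} [Fintype ι] {b : ι → E} {ψ f V : E → ℝ} {g u : ι → E → ℝ}

/-- Real `H¹` functions with their gradients. -/
structure HH (μ : Measure E) (b : ι → E) (f : E → ℝ) (g : ι → E → ℝ) : Prop where
  mem : MemLp f 2 μ
  gmem : ∀ i, MemLp (g i) 2 μ
  wd : ∀ i, IsWD μ (b i) f (g i)

/-- The energy density. -/
def ed (V f : E → ℝ) (g : ι → E → ℝ) (x : E) : ℝ := 1 / 2 * ∑ i, g i x ^ 2 - V x * f x * f x

theorem HH.lf (h : HH μ b f g) : LocallyIntegrable f μ := h.mem.locallyIntegrable (by norm_num)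

theorem HH.lg (h : HH μ b f g) (i : ι) : LocallyIntegrable (g i) μ :=
  (h.gmem i).locallyIntegrable (by norm_num)

omit [FiniteDimensional ℝ E] [BorelSpace E] [μ.IsAddHaarMeasure] in
theorem HH.int_ed (h : HH μ b f g) (hV : MemLp (fun x => V x * f x) 2 μ) :
    Integrable (ed V f g) μ :=
  ((integrable_finsetSum _ fun i _ => (h.gmem i).integrable_sq).const_mul _).sub
    (hV.integrable_mul h.mem)

theorem HH.abs (h : HH μ b f g) :
    HH μ b (fun x => |f x|) fun i x => if 0 < f x then g i x else -g i x := by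
  refine ⟨h.mem.abs, fun i => ?_, fun i => (h.wd i).abs h.lf (h.lg i)⟩
  have e : (fun x => if 0 < f x then g i x else -g i x) =
      fun x => 2 * (if 0 < f x then g i x else 0) - g i x := by
    ext x
    split_ifs <;> ring
  refine (h.gmem i).of_le ?_ (ae_of_all _ fun x => by split_ifs <;> simp)
  rw [e]
  exact ((aesm_indicator_pos h.mem.1 (h.gmem i).1).const_mul 2).sub (h.gmem i).1

theorem HH.mul (h : HH μ b f g) {k : E → ℝ} (hk : ContDiff ℝ ∞ k) {C : ℝ} (k0 : ∀ x, |k x| ≤ C)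
    (k1 : ∀ i x, |dd (b i) k x| ≤ C) :
    HH μ b (fun x => k x * f x) fun i x => dd (b i) k x * f x + k x * g i x := by
  have B : ∀ {a u : E → ℝ}, Continuous a → (∀ x, |a x| ≤ C) → MemLp u 2 μ →
      MemLp (fun x => a x * u x) 2 μ := fun {a u} ha hC hu =>
    hu.of_le_mul (c := C) (ha.aestronglyMeasurable.mul hu.1) (ae_of_all _ fun x => by
      rw [norm_mul]
      exact mul_le_mul_of_nonneg_right (hC x) (norm_nonneg _))
  exact ⟨B hk.continuous k0 h.mem, fun i => (B (dd_smooth hk _).continuous (k1 i) h.mem).add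
    (B hk.continuous k0 (h.gmem i)), fun i => (h.wd i).smooth_smul hk h.lf (h.lg i)⟩

theorem sol_of_min (hV : ∀ f g, HH μ b f g → MemLp (fun x => V x * f x) 2 μ)
    (hlow : ∀ f g, HH μ b f g → 0 ≤ ∫ x, ed V f g x ∂μ) (h : HH μ b ψ g)
    (h0 : ∫ x, ed V ψ g x ∂μ = 0) : Sol μ b ψ g fun x => V x * ψ x := by
  refine ⟨h.lf, h.lg, (hV _ _ h).locallyIntegrable (by norm_num), h.wd, fun η hη => ?_⟩
  have hη' : HH μ b η fun i x => fderiv ℝ η x (b i) := ⟨hη.memLp 2,
    fun i => (hη.fderiv _).memLp 2, fun i => isWD_of_contDiff (hη.1.of_le (by simp))⟩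
  have i1 : ∀ i, Integrable (fun x => fderiv ℝ η x (b i) * g i x) μ :=
    fun i => (hη'.gmem i).integrable_mul (h.gmem i)
  have i2 : Integrable (fun x => η x * (V x * ψ x)) μ := hη'.mem.integrable_mul (hV _ _ h)
  have i3 : Integrable (fun x => ∑ i, fderiv ℝ η x (b i) * g i x - 2 * (η x * (V x * ψ x))) μ :=
    (integrable_finsetSum _ fun i _ => i1 i).sub (i2.const_mul 2)
  rw [← integral_finsetSum _ fun i _ => i1 i, ← integral_const_mul, ← sub_eq_zero,
    ← integral_sub (integrable_finsetSum _ fun i _ => i1 i) (i2.const_mul 2)]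
  have key : ∀ t : ℝ, 0 ≤ (∫ x, ed V η (fun i x => fderiv ℝ η x (b i)) x ∂μ) * (t * t) +
      (∫ x, ∑ i, fderiv ℝ η x (b i) * g i x - 2 * (η x * (V x * ψ x)) ∂μ) * t + 0 := by
    intro t
    have h1 := hlow (fun x => ψ x + t * η x) (fun i x => g i x + t * fderiv ℝ η x (b i))
      ⟨h.mem.add (hη'.mem.const_mul t), fun i => (h.gmem i).add ((hη'.gmem i).const_mul t),
        fun i => (h.wd i).add ((hη'.wd i).const_smul t) h.lf (h.lg i) (hη'.lf.smul t)
          ((hη'.lg i).smul t)⟩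
    have j1 := (hη'.int_ed (hV _ _ hη')).mul_const (t * t)
    have j2 := i3.mul_const t
    refine le_of_le_of_eq ?_ (congrArg _ h0)
    rw [← integral_mul_const, ← integral_mul_const, ← integral_add j1 j2,
      ← integral_add (j1.fun_add j2) (h.int_ed (hV _ _ h))]
    refine h1.trans (le_of_eq (integral_congr_ae (ae_of_all _ fun x => ?_)))
    simp only [ed, add_sq, mul_pow, Finset.sum_add_distrib, mul_assoc, ← Finset.mul_sum,
      mul_left_comm _ t, mul_comm (g _ x) (fderiv ℝ η x _)]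
    ring
  have := discrim_le_zero key
  rw [discrim, mul_zero, sub_zero] at this
  exact pow_eq_zero_iff two_ne_zero |>.1 (le_antisymm this (sq_nonneg _))

theorem hardy_mem (h : HH μ b f g) (p : E →L[ℝ] R3) (a : R3) (j : Fin 3 → ι)
    (hj : ∀ k, p (b (j k)) = EuclideanSpace.single k 1) :
    MemLp (fun x => 1 / ‖p x - a‖ * f x) 2 μ := by
  have h1 := (hardy p a (fun k => b (j k)) hj h.mem (fun k => h.gmem _) fun k => h.wd _).1
  refine (memLp_two_iff_integrable_sq (AEStronglyMeasurable.mul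
    (Measurable.aestronglyMeasurable (by fun_prop)) h.mem.1)).2 (h1.congr (ae_of_all _ fun x => ?_))
  simp only [Pi.mul_apply, mul_pow, Real.norm_eq_abs, sq_abs]
  ring

end General

/-- The six directions. -/
def bb (i : Fin 2 × Fin 3) : Conf 2 := dir i.1 i.2

/-- The position of one electron. -/
def pI (i : Fin 2) : Conf 2 →L[ℝ] R3 := ContinuousLinearMap.proj (R := ℝ) (φ := fun _ => R3) i

/-- The six coordinates. -/
def ll (i : Fin 2 × Fin 3) : Conf 2 →L[ℝ] ℝ := (EuclideanSpace.proj i.2).comp (pI i.1)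

theorem pI_bb (i : Fin 2) (j : Fin 2 × Fin 3) :
    pI i (bb j) = if i = j.1 then EuclideanSpace.single j.2 1 else 0 := by
  simp only [pI, bb, dir, e3, ContinuousLinearMap.proj_apply, Pi.single_apply]

theorem frame : Frame bb ll := by
  refine ⟨fun i j => ?_, fun x => ?_, by simp [H868.finrank_conf]⟩
  · simp only [ll, ContinuousLinearMap.comp_apply, pI_bb, Prod.ext_iff]
    by_cases h : i.1 = j.1 <;> simp [h, PiLp.single_apply]
  · have e : ∑ i, ll i x ^ 2 = ∑ i, ‖x i‖ ^ 2 := by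
      simp only [Fintype.sum_prod_type, EuclideanSpace.norm_sq_eq, Real.norm_eq_abs, sq_abs]
      rfl
    rw [e, ← Real.le_sqrt (norm_nonneg _) (by positivity), pi_norm_le_iff_of_nonneg (by positivity)]
    exact fun i => Real.le_sqrt_of_sq_le (Finset.single_le_sum (f := fun i => ‖x i‖ ^ 2)
      (fun j _ => sq_nonneg _) (Finset.mem_univ i))

variable {M : ℕ} (Z : Fin M → ℕ) (R : Fin M → R3)

/-- The potential of the nuclei. -/
def nuc (r : R3) : ℝ := ∑ j, -((Z j : ℝ) / ‖r - R j‖)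

theorem coul_eq (x : Conf 2) :
    coulombPotential Z R x = nuc Z R (x 0) + nuc Z R (x 1) + 1 / ‖x 0 - x 1‖ := by
  unfold coulombPotential nuc
  rw [Fin.sum_univ_two, Fin.sum_univ_two, show Finset.Ioi (0 : Fin 2) = {1} by decide,
    show Finset.Ioi (1 : Fin 2) = ∅ by decide]
  simp

/-- The singular terms. -/
def sp : Option (Fin 2 × Fin M) → Conf 2 →L[ℝ] R3
  | none => pI 0 - pI 1
  | some a => pI a.1

/-- Their centres. -/
def sR : Option (Fin 2 × Fin M) → R3
  | none => 0
  | some a => R a.2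

/-- Their coefficients. -/
def sc : Option (Fin 2 × Fin M) → ℝ
  | none => 1
  | some a => -Z a.2

theorem coul_eq' (x : Conf 2) :
    coulombPotential Z R x = ∑ a, sc Z a / ‖sp a x - sR R a‖ := by
  rw [coul_eq, Fintype.sum_option, Fintype.sum_prod_type, Fin.sum_univ_two, add_comm]
  simp only [nuc, sp, sR, sc, neg_div, sub_zero]
  rfl

variable {f : Conf 2 → ℝ} {g : Fin 2 × Fin 3 → Conf 2 → ℝ}

theorem sp_mem (h : HH volume bb f g) (a : Option (Fin 2 × Fin M)) :
    MemLp (fun x => 1 / ‖sp a x - sR R a‖ * f x) 2 volume := by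
  rcases a with _ | a
  · exact hardy_mem h _ _ (fun k => (0, k)) fun k => by simp [sp, pI_bb]
  · exact hardy_mem h _ _ (fun k => (a.1, k)) fun k => by simp [sp, pI_bb]

theorem coul_mem (e : ℝ) (h : HH volume bb f g) :
    MemLp (fun x => (e - coulombPotential Z R x) * f x) 2 volume := by
  refine ((h.mem.const_mul e).sub (memLp_finsetSum Finset.univ fun a _ =>
    (sp_mem R h a).const_mul (sc Z a))).ae_eq (ae_of_all _ fun x => ?_)
  simp only [Pi.sub_apply, coul_eq', sub_mul, Finset.sum_mul]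
  congr 2
  ext a
  ring

theorem coul_grad (e : ℝ) (hlow : ∀ f g, HH volume bb f g →
    0 ≤ ∫ x, ed (fun x => e - coulombPotential Z R x) f g x) : ∃ C : ℝ, 0 ≤ C ∧
    ∀ f g, HH volume bb f g → ∫ x, ed (fun x => e - coulombPotential Z R x) f g x = 0 →
      ∀ᵐ x, ∑ i, |g i x| ≤ C * |f x| := by
  obtain ⟨C, hC, H⟩ := frame.log_grad (μ := volume) sp (sR R) (sc Z)
    (fun a => a.elim 2 fun _ => 1) (fun a => by cases a <;> simp) (fun a y => by
      rcases a with _ | ⟨i, j⟩
      · simp [sp, pI_bb, Fintype.sum_prod_type, EuclideanSpace.inner_single_right,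
          EuclideanSpace.norm_sq_eq, two_mul]
      · fin_cases i <;> simp [sp, pI_bb, Fintype.sum_prod_type,
          EuclideanSpace.inner_single_right, EuclideanSpace.norm_sq_eq]) (fun a => by
      rcases a with _ | ⟨i, j⟩
      · simp [sp, pI_bb, Fintype.sum_prod_type]
        norm_num
      · fin_cases i <;> simp [sp, pI_bb, Fintype.sum_prod_type]) e
  refine ⟨C, hC, fun f g h h0 => ?_⟩
  have S := sol_of_min (fun f g => coul_mem Z R e) hlow h.abs (by
    rw [← h0]
    congr 1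
    ext x
    simp only [ed, mul_assoc, abs_mul_abs_self]
    congr 3
    ext i
    split_ifs <;> ring)
  simp only [coul_eq'] at S
  filter_upwards [H _ _ h.abs.mem h.abs.gmem (sp_mem R h.abs) S
    (ae_of_all _ fun x => abs_nonneg _)] with x hx
  refine le_trans (le_of_eq (Finset.sum_congr rfl fun i _ => ?_)) hx
  split_ifs <;> simp

/-- The exchange of the two electrons. -/
abbrev sw : Equiv.Perm (Fin 2) := Equiv.swap 0 1

/-- First coefficient. -/
def cA (s : Fin 2 → Fin 2) : ℤ := if s = ![0, 1] then 1 else 0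

/-- Second coefficient. -/
def cB (s : Fin 2 → Fin 2) : ℤ := if s = ![1, 0] then -1 else 0

theorem HH.swap (h : HH volume bb f g) :
    HH volume bb (fun x => f (x ∘ sw)) fun i x => g (sw i.1, i.2) (x ∘ sw) :=
  ⟨h.mem.comp_measurePreserving (permE_mp sw),
    fun _ => (h.gmem _).comp_measurePreserving (permE_mp sw),
    fun i => isWD_comp_equiv (permE sw) (permE_mp sw) (by
      rw [bb, dir_comp]
      exact h.wd (sw i.1, i.2))⟩

/-- The state built from a function of two positions. -/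
def mk (h : HH volume bb f g) : ElectronState 2 where
  amp s x := ((cA s * f x + cB s * f (x ∘ sw) : ℝ) : ℂ)
  grad s i k x := ((cA s * g (i, k) x + cB s * g (sw i, k) (x ∘ sw) : ℝ) : ℂ)
  amp_memLp _ := ((h.mem.const_mul _).add (h.swap.mem.const_mul _)).ofReal
  grad_memLp _ i k :=
    (((h.gmem (i, k)).const_mul _).add ((h.swap.gmem (i, k)).const_mul _)).ofReal
  grad_weak s i k := isWeakDeriv_iff.2 ((((h.wd (i, k)).const_smul (cA s : ℝ)).add
    ((h.swap.wd (i, k)).const_smul (cB s : ℝ)) (h.lf.smul (cA s : ℝ))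
    ((h.lg (i, k)).smul (cA s : ℝ)) (h.swap.lf.smul (cB s : ℝ))
    ((h.swap.lg (i, k)).smul (cB s : ℝ))).clm_comp Complex.ofRealCLM
    (fun _ hφ => hφ.integrable_smul ((h.lf.smul (cA s : ℝ)).add (h.swap.lf.smul (cB s : ℝ))))
    fun _ hφ => hφ.integrable_smul (((h.lg (i, k)).smul (cA s : ℝ)).add
      ((h.swap.lg (i, k)).smul (cB s : ℝ))))
  antisymm σ s := ae_of_all _ fun x => by
    rcases (by decide : ∀ σ : Equiv.Perm (Fin 2), σ = 1 ∨ σ = sw) σ with rfl | rfl
    · simp
    · have e : (x ∘ sw) ∘ sw = x := by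
        ext1 i
        simp
      rw [e, (by decide : ∀ s, cA (s ∘ sw) = -cB s) s, (by decide : ∀ s, cB (s ∘ sw) = -cA s) s,
        Equiv.Perm.sign_swap (by decide)]
      push_cast
      ring

theorem sum_mk (F : ℝ → ℝ → ℝ) :
    ∑ s, F (cA s) (cB s) = F 1 0 + F 0 (-1) + 2 * F 0 0 := by
  rw [← (finTwoArrowEquiv (Fin 2)).symm.sum_comp, Fintype.sum_prod_type]
  simp [Fin.sum_univ_two, cA, cB, finTwoArrowEquiv]
  ring

theorem normSq_mk (h : HH volume bb f g) : normSq (mk h) = 2 * ∫ x, f x ^ 2 := by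
  rw [normSq_eq]
  simp only [mk, Complex.norm_real, Real.norm_eq_abs, sq_abs]
  rw [sum_mk fun a c => ∫ x, (a * f x + c * f (x ∘ sw)) ^ 2]
  simp [integral_perm sw fun x => f x ^ 2, two_mul]

theorem energy_mk (h : HH volume bb f g) {w : Conf 2 → ℝ} (hw : ∀ x, w (x ∘ sw) = w x) :
    energy w (mk h) = (∑ i, ∫ x, g i x ^ 2) + 2 * ∫ x, w x * f x ^ 2 := by
  rw [energy_eq, kinE, potE]
  simp only [mk, Complex.norm_real, Real.norm_eq_abs, sq_abs]
  rw [sum_mk fun a c => ∫ x, w x * (a * f x + c * f (x ∘ sw)) ^ 2,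
    sum_mk fun a c => ∑ i, ∑ k, ∫ x, (a * g (i, k) x + c * g (sw i, k) (x ∘ sw)) ^ 2]
  have e1 := integral_perm sw fun x => w x * f x ^ 2
  have e2 := fun i => integral_perm sw fun x => g i x ^ 2
  simp only [hw] at e1
  simp [e1, e2, Fintype.sum_prod_type]
  ring

theorem density_mk (h : HH volume bb f g) (r : R3) : density (mk h) r =
    2 * ((∫ y : Conf 1, f (Fin.cons r y) ^ 2) + ∫ y : Conf 1, f (Fin.cons r y ∘ sw) ^ 2) := by
  rw [density_eq]
  simp only [mk, Complex.norm_real, Real.norm_eq_abs, sq_abs]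
  rw [sum_mk fun a c => ∫ y : Conf 1, (a * f (Fin.cons r y) + c * f (Fin.cons r y ∘ sw)) ^ 2]
  simp
  norm_num

theorem int_ed_eq (e : ℝ) (h : HH volume bb f g) :
    ∫ x, ed (fun x => e - coulombPotential Z R x) f g x = 1 / 2 * (∑ i, ∫ x, g i x ^ 2) +
      (∫ x, coulombPotential Z R x * f x ^ 2) - e * ∫ x, f x ^ 2 := by
  have i1 := integrable_finsetSum Finset.univ fun i _ => (h.gmem i).integrable_sq
  have i2 : Integrable fun x => coulombPotential Z R x * f x ^ 2 :=
    ((coul_mem Z R 0 h).integrable_mul h.mem).neg.congr (ae_of_all _ fun x => by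
      simp only [Pi.neg_apply, Pi.mul_apply]
      ring)
  rw [← integral_finsetSum _ fun i _ => (h.gmem i).integrable_sq, ← integral_const_mul,
    ← integral_const_mul, ← integral_add (i1.const_mul _) i2,
    ← integral_sub ((i1.const_mul _).fun_add i2) (h.mem.integrable_sq.const_mul _)]
  congr 1
  ext x
  unfold ed
  ring

variable {Z R} {Ψ : ElectronState 2}

theorem low_of_ground (hΨ : IsGroundState (coulombPotential Z R) Ψ) (f g) (h : HH volume bb f g) :
    0 ≤ ∫ x, ed (fun x => energy (coulombPotential Z R) Ψ - coulombPotential Z R x) f g x := by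
  have := H943.ground_le' hΨ (mk h)
  rw [normSq_mk, energy_mk h fun x => by
    rw [coul_eq, coul_eq, norm_sub_rev (x 0), add_comm (nuc Z R (x 0))]
    rfl] at this
  rw [int_ed_eq Z R _ h]
  linarith

theorem hh_part (Ψ : ElectronState 2) (j : (Fin 2 → Fin 2) × Bool) :
    HH volume bb (fun x => H700.part j.2 (Ψ.amp j.1 x))
      fun i x => H700.part j.2 (Ψ.grad j.1 i.1 i.2 x) := by
  refine ⟨H700.part_memLp _ (amp_L2 Ψ _), fun i => H700.part_memLp _ (grad_L2 Ψ _ _ _),
    fun i => ?_⟩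
  have l1 := (amp_L2 Ψ j.1).locallyIntegrable (by norm_num)
  have l2 := (grad_L2 Ψ j.1 i.1 i.2).locallyIntegrable (by norm_num)
  rcases j with ⟨s, _ | _⟩
  · exact H700.isWD_im (grad_WD Ψ s i.1 i.2) l1 l2
  · exact H700.isWD_re (grad_WD Ψ s i.1 i.2) l1 l2

theorem int_part {α : Type*} [MeasurableSpace α] {μ : Measure α} {w : α → ℝ} {F : α → ℂ}
    (h : ∀ t, Integrable (fun x => w x * H700.part t (F x) ^ 2) μ) :
    ∑ t, ∫ x, w x * H700.part t (F x) ^ 2 ∂μ = ∫ x, w x * ‖F x‖ ^ 2 ∂μ := by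
  rw [← integral_finsetSum _ fun t _ => h t]
  simp only [Fintype.sum_bool, ← mul_add, H700.part_sum_sq]

theorem part_zero (hΨ : IsGroundState (coulombPotential Z R) Ψ) (j : (Fin 2 → Fin 2) × Bool) :
    ∫ x, ed (fun x => energy (coulombPotential Z R) Ψ - coulombPotential Z R x)
      (fun x => H700.part j.2 (Ψ.amp j.1 x))
      (fun (i : Fin 2 × Fin 3) x => H700.part j.2 (Ψ.grad j.1 i.1 i.2 x)) x = 0 := by
  refine (Finset.sum_eq_zero_iff_of_nonneg (f := fun j : (Fin 2 → Fin 2) × Bool =>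
    ∫ x, ed (fun x => energy (coulombPotential Z R) Ψ - coulombPotential Z R x)
      (fun x => H700.part j.2 (Ψ.amp j.1 x))
      (fun (i : Fin 2 × Fin 3) x => H700.part j.2 (Ψ.grad j.1 i.1 i.2 x)) x) fun j _ =>
    low_of_ground hΨ _ _ (hh_part Ψ j)).1 ?_ j (Finset.mem_univ _)
  have e1 : ∀ {F : Conf 2 → ℂ}, MemLp F 2 volume →
      ∑ t, ∫ x, H700.part t (F x) ^ 2 = ∫ x, ‖F x‖ ^ 2 := fun hF => by
    simpa using int_part (w := fun _ => 1) fun t =>
      (H700.part_memLp t hF).integrable_sq.const_mul 1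
  have e2 : ∀ s, ∑ t, ∫ x, coulombPotential Z R x * H700.part t (Ψ.amp s x) ^ 2 =
      ∫ x, coulombPotential Z R x * ‖Ψ.amp s x‖ ^ 2 := fun s => int_part fun t =>
    ((coul_mem Z R 0 (hh_part Ψ (s, t))).integrable_mul (hh_part Ψ (s, t)).mem).neg.congr
      (ae_of_all _ fun x => by
        simp only [Pi.neg_apply, Pi.mul_apply]
        ring)
  have e3 : ∀ s, ∑ t, ∑ i : Fin 2 × Fin 3, ∫ x, H700.part t (Ψ.grad s i.1 i.2 x) ^ 2 =
      ∑ i, ∑ k, ∫ x, ‖Ψ.grad s i k x‖ ^ 2 := fun s => by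
    rw [Finset.sum_comm, Fintype.sum_prod_type]
    simp only [e1 (grad_L2 Ψ _ _ _)]
  simp only [int_ed_eq Z R _ (hh_part Ψ _), Finset.sum_sub_distrib, Finset.sum_add_distrib,
    ← Finset.mul_sum]
  rw [Fintype.sum_prod_type, Fintype.sum_prod_type, Fintype.sum_prod_type]
  simp only [e1 (amp_L2 Ψ _), e2, e3]
  rw [← normSq_eq, hΨ.1, mul_one, sub_eq_zero]
  rfl

end

end Vale.Agent.N363
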